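import Vale.Agent.P174.H717.Tr
import Mathlib.Algebra.MonoidAlgebra.Basic
import Mathlib.LinearAlgebra.Matrix.Trace
import Mathlib.LinearAlgebra.Matrix.ConjTranspose

/-!
# The trace on matrices over the complex group algebra
-/

namespace Vale.Agent.P174.H717

open Complex Finset MonoidAlgebra MulOpposite

variable {G : Type*} [Group G]

/-- The involution of the complex group algebra. -/
noncomputable def st (x : MonoidAlgebra ℂ G) : MonoidAlgebra ℂ G :=
  x.coeff.sum fun g c => single g⁻¹ ((starRingEnd ℂ) c)

theorem st_single (g : G) (c : ℂ) : st (single g c) = single g⁻¹ ((starRingEnd ℂ) c) := by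
  unfold st
  rw [coeff_single, Finsupp.sum_single_index (by simp)]

theorem st_zero : st (0 : MonoidAlgebra ℂ G) = 0 := by
  unfold st
  rw [coeff_zero, Finsupp.sum_zero_index]

theorem st_add (x y : MonoidAlgebra ℂ G) : st (x + y) = st x + st y := by
  unfold st
  rw [coeff_add]
  refine Finsupp.sum_add_index' (fun g => by simp) fun g c d => ?_
  rw [map_add, single_add]

theorem st_mul (x y : MonoidAlgebra ℂ G) : st (x * y) = st y * st x := by
  induction x using MonoidAlgebra.induction_linear with
  | zero => simp [st_zero]
  | add x x' hx hx' => rw [add_mul, st_add, hx, hx', st_add, mul_add]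
  | single g c =>
    induction y using MonoidAlgebra.induction_linear with
    | zero => simp [st_zero]
    | add y y' hy hy' => rw [mul_add, st_add, hy, hy', st_add, add_mul]
    | single h d =>
      rw [single_mul_single, st_single, st_single, st_single, single_mul_single, mul_inv_rev,
        map_mul, mul_comm ((starRingEnd ℂ) d)]

theorem st_st (x : MonoidAlgebra ℂ G) : st (st x) = x := by
  induction x using MonoidAlgebra.induction_linear with
  | zero => rw [st_zero, st_zero]
  | add x y hx hy => rw [st_add, st_add, hx, hy]
  | single g c => rw [st_single, st_single, inv_inv, conj_conj]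

/-- Star ring structure (scoped). -/
noncomputable scoped instance instStarRing : StarRing (MonoidAlgebra ℂ G) where
  star := st
  star_involutive := st_st
  star_mul := st_mul
  star_add := st_add

theorem star_single (g : G) (c : ℂ) :
    star (single g c : MonoidAlgebra ℂ G) = single g⁻¹ ((starRingEnd ℂ) c) := st_single g c

noncomputable scoped instance instStarModule : StarModule ℂ (MonoidAlgebra ℂ G) where
  star_smul c x := by
    induction x using MonoidAlgebra.induction_linear with
    | zero => simp
    | add x y hx hy => rw [smul_add, star_add, star_add, smul_add, hx, hy]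
    | single g d =>
      rw [smul_single, star_single, star_single, smul_single, smul_eq_mul, map_mul]
      rfl

/-- The canonical trace. -/
noncomputable def tr0 : MonoidAlgebra ℂ G →ₗ[ℂ] ℂ where
  toFun x := x.coeff 1
  map_add' x y := by simp
  map_smul' c x := by simp

theorem tr0_apply (x : MonoidAlgebra ℂ G) : tr0 x = x.coeff 1 := rfl

theorem tr0_single (g : G) (c : ℂ) [Decidable (g = 1)] :
    tr0 (single g c) = if g = 1 then c else 0 := by
  classical
  rw [tr0_apply, coeff_single, Finsupp.single_apply]

theorem tr0_single_one (c : ℂ) : tr0 (single (1 : G) c) = c := by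
  classical
  rw [tr0_single, if_pos rfl]

theorem tr0_comm (x y : MonoidAlgebra ℂ G) : tr0 (x * y) = tr0 (y * x) := by
  classical
  induction x using MonoidAlgebra.induction_linear with
  | zero => simp
  | add x x' hx hx' => rw [add_mul, mul_add, map_add, map_add, hx, hx']
  | single g c =>
    induction y using MonoidAlgebra.induction_linear with
    | zero => simp
    | add y y' hy hy' => rw [add_mul, mul_add, map_add, map_add, hy, hy']
    | single h d =>
      rw [single_mul_single, single_mul_single, tr0_single, tr0_single, mul_comm c d]
      have : g * h = 1 ↔ h * g = 1 := mul_eq_one_comm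
      simp only [this]

theorem tr0_star (x : MonoidAlgebra ℂ G) : tr0 (star x) = (starRingEnd ℂ) (tr0 x) := by
  classical
  induction x using MonoidAlgebra.induction_linear with
  | zero => simp
  | add x x' hx hx' => rw [star_add, map_add, map_add, map_add, hx, hx']
  | single g c =>
    rw [star_single, tr0_single, tr0_single]
    simp only [inv_eq_one]
    split_ifs
    · rfl
    · simp

theorem tr0_pos (x : MonoidAlgebra ℂ G) : 0 ≤ (tr0 (star x * x)).re := by
  classical
  have h1 : ∀ x y : MonoidAlgebra ℂ G, tr0 (star x * y) =
      x.coeff.sum fun g c => (starRingEnd ℂ) c * y.coeff g := by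
    intro x y
    induction x using MonoidAlgebra.induction_linear with
    | zero => simp
    | add x x' hx hx' =>
      rw [star_add, add_mul, map_add, hx, hx', coeff_add, Finsupp.sum_add_index']
      · simp
      · intro g c d
        rw [map_add, add_mul]
    | single g c =>
      rw [star_single, coeff_single, Finsupp.sum_single_index (by simp)]
      induction y using MonoidAlgebra.induction_linear with
      | zero => simp
      | add y y' hy hy' => rw [mul_add, map_add, hy, hy', coeff_add, Finsupp.add_apply, mul_add]
      | single h d =>
        rw [single_mul_single, tr0_single, coeff_single, Finsupp.single_apply]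
        have : g⁻¹ * h = 1 ↔ h = g := by rw [inv_mul_eq_one, eq_comm]
        simp only [this]
        split_ifs <;> simp
  rw [h1, Finsupp.sum, re_sum]
  refine sum_nonneg fun g _ => ?_
  rw [mul_comm, mul_conj, ofReal_re]
  exact normSq_nonneg _

variable {D : Type*} [Fintype D] [DecidableEq D]

/-- The trace on matrices. -/
noncomputable def trM : Matrix D D (MonoidAlgebra ℂ G) →ₗ[ℂ] ℂ where
  toFun X := ∑ d, tr0 (X d d)
  map_add' X Y := by simp [sum_add_distrib]
  map_smul' c X := by simp [mul_sum]

omit [DecidableEq D] in
theorem trM_apply (X : Matrix D D (MonoidAlgebra ℂ G)) : trM X = ∑ d, tr0 (X d d) := rfl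

theorem posTr_trM : PosTr (trM : Matrix D D (MonoidAlgebra ℂ G) →ₗ[ℂ] ℂ) where
  comm X Y := by
    simp only [trM_apply, Matrix.mul_apply, map_sum]
    rw [sum_comm]
    exact sum_congr rfl fun d _ => sum_congr rfl fun e _ => tr0_comm _ _
  star X := by
    simp only [trM_apply, Matrix.star_apply, map_sum]
    exact sum_congr rfl fun d _ => tr0_star _
  pos X := by
    simp only [trM_apply, Matrix.mul_apply, map_sum, Matrix.star_apply, re_sum]
    exact sum_nonneg fun d _ => sum_nonneg fun e _ => tr0_pos _

end Vale.Agent.P174.H717
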