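import Vale.Agent.P174.H717.Refl
import Vale.Agent.P174.H834.Reduce

/-!
# The chain of labelled transpositions kills the coefficient (assembly)
-/

namespace Vale.Agent.P174.H717

open Complex Finset MonoidAlgebra
open Vale.Agent.P174.H834 (Mn IsSw Im lab HH ee)
open Vale.Agent.P174.H834.Mn (mat mat_apply mat_mul mat_one sw dg)

variable {G : Type*} [Group G] {D : Type*} [Fintype D] [DecidableEq D]

/-- The permutation `ι` with the phases `ϑ`, as a scalar matrix (row convention). -/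
noncomputable def IM (ι : Equiv.Perm D) (ϑ : D → ℝ) : Matrix D D ℂ :=
  Matrix.of fun d e => if ι d = e then exp (I * (ϑ d : ℂ)) else 0

omit [Fintype D] in
theorem IM_apply (ι : Equiv.Perm D) (ϑ : D → ℝ) (d e : D) :
    IM ι ϑ d e = if ι d = e then exp (I * (ϑ d : ℂ)) else 0 := rfl

omit [Fintype D] in
theorem IM_star {ι : Equiv.Perm D} (hι : ∀ d, ι (ι d) = d) {ϑ : D → ℝ}
    (hϑ : ∀ d, ϑ (ι d) = -ϑ d) : star (IM ι ϑ) = IM ι ϑ := by
  ext d e
  rw [Matrix.star_apply, IM_apply, IM_apply]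
  by_cases h : ι e = d
  · subst h
    rw [if_pos rfl, if_pos (hι e), hϑ, RCLike.star_def, ← exp_conj, map_mul, conj_I, conj_ofReal]
    push_cast
    congr 1
    ring
  · rw [if_neg h, star_zero, if_neg]
    intro h'
    exact h (by rw [← h', hι])

theorem IM_sq {ι : Equiv.Perm D} (hι : ∀ d, ι (ι d) = d) {ϑ : D → ℝ}
    (hϑ : ∀ d, ϑ (ι d) = -ϑ d) : IM ι ϑ * IM ι ϑ = 1 := by
  ext d e
  rw [Matrix.mul_apply, sum_eq_single (ι d)]
  · rw [IM_apply, IM_apply, if_pos rfl, hι, Matrix.one_apply, hϑ]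
    by_cases h : d = e
    · rw [if_pos h, if_pos h, ← exp_add]
      push_cast
      rw [mul_neg, add_neg_cancel, exp_zero]
    · rw [if_neg h, if_neg h, mul_zero]
  · intro b _ hb
    rw [IM_apply, if_neg (Ne.symm hb), zero_mul]
  · intro h
    exact absurd (mem_univ _) h

omit [Fintype D] in
theorem mat_Im (ε : ℝ) (ι : Equiv.Perm D) (θ : D → Multiplicative ℤ) :
    mat (rho ε) (Im ι (lab G θ)) =
      sc (IM ι fun d => ((Multiplicative.toAdd (θ d) : ℤ) : ℝ) * ε) := by
  ext1 d e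
  rw [mat_apply, sc, Matrix.map_apply, IM_apply]
  change (if ι d = e then single (1 : G) (exp (I * ((Multiplicative.toAdd (θ d) : ℤ) : ℂ) * ε))
    else 0) = _
  by_cases h : ι d = e
  · rw [if_pos h, if_pos h, Algebra.algebraMap_eq_smul_one, one_def, smul_single, smul_eq_mul,
      mul_one]
    congr 2
    push_cast
    ring
  · rw [if_neg h, if_neg h, map_zero]

omit [Fintype D] in
theorem mat_dg {H : Type*} [Group H] {R : Type*} [Semiring R] (ρ : H →* R) (c : D → H) :
    mat ρ (dg c) = Matrix.diagonal fun d => ρ (c d) := by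
  ext d e
  rw [mat_apply, Matrix.diagonal_apply]
  rfl

/-- **Assembly**, with an abstract hermitian symmetry `P`. -/
theorem asm (d0 : D) (g0 : G) (K t : ℕ) (x : Mn D (HH G)) (ι : Equiv.Perm D)
    (θ : D → Multiplicative ℤ) (k : Multiplicative ℤ) (Rs : List (Mn D (HH G)))
    (hι : ∀ d, ι (ι d) = d) (hθ : ∀ d, θ (ι d) = (θ d)⁻¹) (hRs : ∀ R ∈ Rs, IsSw R)
    (hchain : Rs.prod * (x * Im ι (lab G θ)) =
      dg fun d => if d = d0 then (g0, k) else (ee G)⁻¹)
    (hcnt : Rs.length + t + 2 ≤ Fintype.card D + K)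
    (hP : ∀ ϑ : D → ℝ, (∀ d, ϑ (ι d) = -ϑ d) → ∃ P : Matrix D D ℂ, star P = P ∧ P * P = 1 ∧
      K ≤ Module.finrank ℂ (LinearMap.ker (Matrix.toLin' (P * IM ι ϑ - 1))) ∧
      (∀ d e, P (x.σ d) (x.σ.symm e) = P d e) ∧
      (∀ d e, P d e ≠ 0 → x.c d * x.c (x.σ.symm e) = 1) ∧
      (∀ d, P (x.σ d) d ≠ 0 → x.c d = 1) ∧
      ∑ d, P (x.σ d) d = (Fintype.card D : ℂ) - 2 * t) : g0 = 1 := by
  refine AN0' d0 g0 K fun ε₀ hε₀ => ?_
  set ε : ℝ := ε₀ / 2 with hε
  have hε1 : 0 < ε := by positivity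
  have hε2 : ε < ε₀ := by
    rw [hε]
    linarith
  set ϑ : D → ℝ := fun d => ((Multiplicative.toAdd (θ d) : ℤ) : ℝ) * ε with hϑ
  have hϑι : ∀ d, ϑ (ι d) = -ϑ d := by
    intro d
    rw [hϑ]
    simp only
    rw [hθ, toAdd_inv]
    push_cast
    ring
  obtain ⟨P, p1, p2, p3, p4, p5, p6, p7⟩ := hP ϑ hϑι
  have hρ : ∀ h, star (rho (G := G) ε h) = rho ε h⁻¹ := star_rho ε
  have hx : (mat (rho ε) x * sc P) * (mat (rho ε) x * sc P) = 1 := by
    have h1 : mat (rho ε) x * sc P * mat (rho ε) x = sc P := by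
      ext1 d e
      rw [Matrix.mul_apply, sum_eq_single (x.σ.symm e), Matrix.mul_apply, sum_eq_single (x.σ d)]
      · rw [mat_apply, if_pos rfl, mat_apply, if_pos (Equiv.apply_symm_apply _ _), sc,
          Matrix.map_apply, Matrix.map_apply, p4, Algebra.algebraMap_eq_smul_one, mul_smul_comm,
          mul_one, smul_mul_assoc, ← map_mul]
        by_cases h : P d e = 0
        · rw [h, zero_smul, zero_smul]
        · rw [p5 d e h, map_one]
      · intro b _ hb
        rw [mat_apply, if_neg (Ne.symm hb), zero_mul]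
      · intro h
        exact absurd (mem_univ _) h
      · intro b _ hb
        rw [mat_apply (rho ε) x b e, if_neg, mul_zero]
        intro h
        exact hb (by rw [← h, Equiv.symm_apply_apply])
      · intro h
        exact absurd (mem_univ _) h
    rw [← mul_assoc, h1, ← sc_mul, p2, sc_one]
  obtain ⟨Q0, q1, q2, q3, q4⟩ := psi_refl hρ p1 p2 x hx
  obtain ⟨Qs, r1, r2, r3⟩ := chain_list hρ Rs hRs
  have hQ0 : (trM Q0).re = t := by
    have e1 : ∀ d, P (x.σ d) d * tr0 (rho ε (x.c d)) = P (x.σ d) d := by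
      intro d
      by_cases h : P (x.σ d) d = 0
      · rw [h, zero_mul]
      · rw [p6 d h, map_one, one_def, tr0_single_one, mul_one]
    rw [q4]
    simp only [e1]
    rw [p7]
    have : ((Fintype.card D : ℂ) - ((Fintype.card D : ℂ) - 2 * t)) / 2 = (t : ℂ) := by ring
    rw [this, natCast_re]
  refine ⟨P * IM ι ϑ, P, Qs ++ [Q0], fun d => if d = d0 then
    ((Multiplicative.toAdd k : ℤ) : ℝ) * ε else -ε, ?_, ?_, ?_, p3, ?_, ?_, ?_, ?_⟩
  · rw [star_mul, p1, IM_star hι hϑι, mul_assoc, ← mul_assoc P P, p2, one_mul, IM_sq hι hϑι]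
  · rw [p1, p2]
  · rw [star_mul, p1, IM_star hι hϑι, ← mul_assoc, p2, one_mul, mul_assoc, p2, mul_one]
  · intro Q hQ
    rcases List.mem_append.1 hQ with h | h
    · exact r1 Q h
    · rw [List.mem_singleton] at h
      subst h
      exact ⟨q1, q2⟩
  · rw [List.map_append, List.sum_append, r2, List.map_singleton, List.sum_singleton, hQ0]
    exact_mod_cast hcnt
  · intro d hd
    simp only [if_neg hd]
    constructor <;> linarith
  · rw [List.map_append, List.prod_append, List.map_singleton, List.prod_singleton, ← q3, ← r3,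
      sc_mul]
    have e2 : mat (rho ε) Rs.prod * (mat (rho ε) x * sc P) * (sc P * sc (IM ι ϑ)) =
        mat (rho ε) Rs.prod * (mat (rho ε) x * sc (IM ι ϑ)) := by
      rw [mul_assoc, mul_assoc (mat (rho ε) x), ← mul_assoc (sc P), ← sc_mul, p2, sc_one,
        one_mul]
    rw [e2, hϑ, ← mat_Im, ← mat_mul, ← mat_mul, hchain, mat_dg]
    congr 1
    funext d
    by_cases h : d = d0
    · rw [if_pos h, if_pos h]
      change single g0 (exp (I * ((Multiplicative.toAdd k : ℤ) : ℂ) * ε)) =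
        single g0 (exp (I * (((if d = d0 then ((Multiplicative.toAdd k : ℤ) : ℝ) * ε
          else -ε : ℝ)) : ℂ)))
      rw [if_pos h]
      congr 2
      push_cast
      ring
    · rw [if_neg h, if_neg h]
      change single (1 : G)⁻¹ (exp (I * ((-1 : ℤ) : ℂ) * ε)) =
        single 1 (exp (I * (((if d = d0 then ((Multiplicative.toAdd k : ℤ) : ℝ) * ε
          else -ε : ℝ)) : ℂ)))
      rw [inv_one, if_neg h]
      congr 2
      push_cast
      ring

end Vale.Agent.P174.H717
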