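import Vale.Agent.P174.H717.Asm

/-!
# The assembly on the explicit type of darts
-/

namespace Vale.Agent.P174.H717

open Complex Finset MonoidAlgebra
open Vale.Agent.P174.H834 (Mn IsSw Im lab HH ee)
open Vale.Agent.P174.H834.Mn (mat mat_apply mat_mul mat_one sw dg)

/-- The darts: `N` positive and `N` negative copies of the relator letters, pairs of letters of
the conjugators, markers. -/
abbrev Dt (R B M : Type*) (N : ℕ) := (R × Bool × Fin N) ⊕ (B × Bool) ⊕ M

section
variable {G : Type*} [Group G] {R B M I : Type*} {N : ℕ}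

/-- The permutation: rotation of the relators, inverse rotation on the negative copies, swap on
the pairs, identity on the markers. -/
def PhiS (nxt : Equiv.Perm R) : Equiv.Perm (Dt R B M N) where
  toFun
    | Sum.inl (r, true, p) => Sum.inl (nxt r, true, p)
    | Sum.inl (r, false, p) => Sum.inl (nxt.symm r, false, p)
    | Sum.inr (Sum.inl (b, s)) => Sum.inr (Sum.inl (b, !s))
    | Sum.inr (Sum.inr m) => Sum.inr (Sum.inr m)
  invFun
    | Sum.inl (r, true, p) => Sum.inl (nxt.symm r, true, p)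
    | Sum.inl (r, false, p) => Sum.inl (nxt r, false, p)
    | Sum.inr (Sum.inl (b, s)) => Sum.inr (Sum.inl (b, !s))
    | Sum.inr (Sum.inr m) => Sum.inr (Sum.inr m)
  left_inv := by
    rintro (⟨r, (_ | _), p⟩ | ⟨b, s⟩ | m) <;> simp
  right_inv := by
    rintro (⟨r, (_ | _), p⟩ | ⟨b, s⟩ | m) <;> simp

/-- The labels. -/
def PhiC (nxt : Equiv.Perm R) (c : R → G) : Dt R B M N → HH G
  | Sum.inl (r, true, _) => (c r, 1)
  | Sum.inl (r, false, _) => ((c (nxt.symm r))⁻¹, 1)
  | Sum.inr _ => 1

/-- The basic labelled permutation. -/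
def PhiD (nxt : Equiv.Perm R) (c : R → G) : Mn (Dt R B M N) (HH G) := ⟨PhiS nxt, PhiC nxt c⟩

variable [DecidableEq R] [DecidableEq B] [DecidableEq M]

/-- Entries of the hermitian symmetry. -/
noncomputable def PiE (rel : R → I) (π : I → Matrix (Fin N) (Fin N) ℂ) :
    Dt R B M N → Dt R B M N → ℂ
  | Sum.inl (r, true, p), Sum.inl (s, false, q) => if r = s then π (rel r) p q else 0
  | Sum.inl (s, false, q), Sum.inl (r, true, p) => if r = s then star (π (rel r) p q) else 0
  | Sum.inl (_, true, _), Sum.inl (_, true, _) => 0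
  | Sum.inl (_, false, _), Sum.inl (_, false, _) => 0
  | Sum.inr (Sum.inl (b, s)), Sum.inr (Sum.inl (b', s')) => if b = b' ∧ s = !s' then 1 else 0
  | Sum.inr (Sum.inr m), Sum.inr (Sum.inr m') => if m = m' then 1 else 0
  | Sum.inl _, Sum.inr _ => 0
  | Sum.inr _, Sum.inl _ => 0
  | Sum.inr (Sum.inl _), Sum.inr (Sum.inr _) => 0
  | Sum.inr (Sum.inr _), Sum.inr (Sum.inl _) => 0

/-- The hermitian symmetry. -/
noncomputable def PiM (rel : R → I) (π : I → Matrix (Fin N) (Fin N) ℂ) :
    Matrix (Dt R B M N) (Dt R B M N) ℂ := Matrix.of (PiE rel π)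

theorem PiM_star (rel : R → I) (π : I → Matrix (Fin N) (Fin N) ℂ) :
    star (PiM (B := B) (M := M) rel π) = PiM rel π := by
  ext d e
  rw [Matrix.star_apply, PiM, Matrix.of_apply, Matrix.of_apply]
  rcases d with ⟨r, (_ | _), p⟩ | ⟨b, s⟩ | m <;> rcases e with ⟨r', (_ | _), p'⟩ | ⟨b', s'⟩ | m' <;>
    simp only [PiE, star_zero]
  · split_ifs <;> simp
  · split_ifs <;> simp
  · by_cases h1 : b = b'
    · subst h1
      cases s <;> cases s' <;> simp
    · have h2 : ¬ b' = b := fun h => h1 h.symm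
      simp [h1, h2]
  · by_cases h1 : m = m'
    · subst h1
      simp
    · have h2 : ¬ m' = m := fun h => h1 h.symm
      simp [h1, h2]

variable [Fintype R] [Fintype B] [Fintype M]

theorem PiM_sq (rel : R → I) (π : I → Matrix (Fin N) (Fin N) ℂ)
    (hπ : ∀ i, star (π i) * π i = 1) :
    PiM (B := B) (M := M) rel π * PiM rel π = 1 := by
  have hπ' : ∀ i, π i * star (π i) = 1 := fun i => mul_eq_one_comm.1 (hπ i)
  ext d e
  rw [Matrix.mul_apply, Fintype.sum_sum_type, Fintype.sum_sum_type, Fintype.sum_prod_type,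
    Fintype.sum_prod_type]
  simp only [Fintype.sum_prod_type, Fintype.sum_bool, PiM, Matrix.of_apply]
  rcases d with ⟨r, (_ | _), p⟩ | ⟨b, s⟩ | m <;> rcases e with ⟨r', (_ | _), p'⟩ | ⟨b', s'⟩ | m' <;>
    simp only [PiE, mul_zero, zero_mul, sum_const_zero, add_zero, zero_add, Matrix.one_apply]
  · -- negative, negative
    by_cases h : r = r'
    · subst h
      rw [sum_eq_single r]
      · simp only [if_true]
        have h2 := congrFun (congrFun (hπ (rel r)) p) p'
        rw [Matrix.mul_apply, Matrix.one_apply] at h2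
        simp only [Matrix.star_apply] at h2
        rw [h2]
        by_cases hp : p = p' <;> simp [hp]
      · intro x _ hx
        simp [hx]
      · intro hx
        exact absurd (mem_univ _) hx
    · rw [if_neg (by simp [h])]
      refine sum_eq_zero fun x _ => sum_eq_zero fun y _ => ?_
      by_cases h1 : x = r
      · subst h1
        simp [h]
      · simp [h1]
  all_goals try simp only [reduceCtorEq, if_false, Sum.inl.injEq, Sum.inr.injEq, Prod.mk.injEq,
    false_and, and_false]
  · -- positive, positive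
    by_cases h : r = r'
    · subst h
      rw [sum_eq_single r]
      · simp only [if_true]
        have h2 := congrFun (congrFun (hπ' (rel r)) p) p'
        rw [Matrix.mul_apply, Matrix.one_apply] at h2
        simp only [Matrix.star_apply] at h2
        rw [h2]
        by_cases hp : p = p' <;> simp [hp]
      · intro x _ hx
        simp [Ne.symm hx]
      · intro hx
        exact absurd (mem_univ _) hx
    · rw [if_neg (by simp [h])]
      refine sum_eq_zero fun x _ => sum_eq_zero fun y _ => ?_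
      by_cases h1 : x = r
      · subst h1
        simp [Ne.symm h]
      · simp [Ne.symm h1]
  · rw [sum_eq_single b]
    · cases s <;> cases s' <;> simp
    · intro x _ hx
      simp [Ne.symm hx]
    · intro hx
      exact absurd (mem_univ _) hx
  · rw [sum_eq_single m]
    · simp
    · intro x _ hx
      simp [Ne.symm hx]
    · intro hx
      exact absurd (mem_univ _) hx

/-- **Assembly on the explicit darts**. -/
theorem asmD (nxt : Equiv.Perm R) (c : R → G) (rel : R → I) (hrel : ∀ r, rel (nxt r) = rel r)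
    (m0 : M) (g0 : G) (K : ℕ) (ι : Equiv.Perm (Dt R B M N))
    (θ : Dt R B M N → Multiplicative ℤ) (k : Multiplicative ℤ)
    (Rs : List (Mn (Dt R B M N) (HH G)))
    (hι : ∀ d, ι (ι d) = d) (hθ : ∀ d, θ (ι d) = (θ d)⁻¹) (hRs : ∀ R ∈ Rs, IsSw R)
    (hchain : Rs.prod * (PhiD nxt c * Im ι (lab G θ)) =
      dg fun d => if d = Sum.inr (Sum.inr m0) then (g0, k) else (ee G)⁻¹)
    (hcnt : Rs.length + 2 ≤ Fintype.card R * N + 2 * Fintype.card B + Fintype.card M + K)
    (hP : ∀ ϑ : Dt R B M N → ℝ, (∀ d, ϑ (ι d) = -ϑ d) → ∃ π : I → Matrix (Fin N) (Fin N) ℂ,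
      (∀ i, star (π i) * π i = 1) ∧
      K ≤ Module.finrank ℂ (LinearMap.ker (Matrix.toLin' (PiM rel π * IM ι ϑ - 1)))) :
    g0 = 1 := by
  have hcard : Fintype.card (Dt R B M N) =
      2 * (Fintype.card R * N) + 2 * Fintype.card B + Fintype.card M := by
    rw [Fintype.card_sum, Fintype.card_sum, Fintype.card_prod, Fintype.card_prod,
      Fintype.card_prod, Fintype.card_bool, Fintype.card_fin]
    ring
  refine asm (Sum.inr (Sum.inr m0)) g0 K (Fintype.card R * N) (PhiD nxt c) ι θ k Rs hι hθ hRs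
    hchain (by rw [hcard]; omega) fun ϑ hϑ => ?_
  obtain ⟨π, h1, h2⟩ := hP ϑ hϑ
  have hrel' : ∀ r, rel (nxt.symm r) = rel r := fun r => by
    rw [← hrel (nxt.symm r), Equiv.apply_symm_apply]
  refine ⟨PiM rel π, PiM_star rel π, PiM_sq rel π h1, h2, ?_, ?_, ?_, ?_⟩
  · intro d e
    rcases d with ⟨r, (_ | _), p⟩ | ⟨b, s⟩ | m <;>
      rcases e with ⟨r', (_ | _), p'⟩ | ⟨b', s'⟩ | m' <;>
      simp [PhiD, PhiS, PiM, PiE, hrel, hrel']
  · intro d e hde
    rcases d with ⟨r, (_ | _), p⟩ | ⟨b, s⟩ | m <;>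
      rcases e with ⟨r', (_ | _), p'⟩ | ⟨b', s'⟩ | m' <;>
      simp [PhiD, PhiS, PhiC, PiM, PiE] at hde ⊢
    · rw [hde.1, inv_mul_cancel]
    · rw [hde.1, mul_inv_cancel]
  · intro d hd
    rcases d with ⟨r, (_ | _), p⟩ | ⟨b, s⟩ | m <;>
      simp [PhiD, PhiS, PhiC, PiM, PiE] at hd ⊢
  · rw [hcard, Fintype.sum_sum_type, Fintype.sum_sum_type]
    have e1 : ∑ a : R × Bool × Fin N, PiM (B := B) (M := M) rel π
        ((PhiD nxt c).σ (Sum.inl a)) (Sum.inl a) = 0 := by
      refine sum_eq_zero fun a _ => ?_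
      rcases a with ⟨r, (_ | _), p⟩ <;> simp [PhiD, PhiS, PiM, PiE]
    have e2 : ∑ a : B × Bool, PiM (R := R) (M := M) rel π
        ((PhiD nxt c).σ (Sum.inr (Sum.inl a))) (Sum.inr (Sum.inl a)) = 2 * Fintype.card B := by
      rw [sum_congr rfl fun a _ => show _ = (1 : ℂ) from ?_]
      · simp [mul_comm]
      · rcases a with ⟨b, s⟩
        cases s <;> simp [PhiD, PhiS, PiM, PiE]
    have e3 : ∑ a : M, PiM (R := R) (B := B) rel π
        ((PhiD nxt c).σ (Sum.inr (Sum.inr a))) (Sum.inr (Sum.inr a)) = Fintype.card M := by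
      rw [sum_congr rfl fun a _ => show _ = (1 : ℂ) from ?_]
      · simp
      · simp [PhiD, PhiS, PiM, PiE]
    rw [e1, e2, e3]
    push_cast
    ring

end

end Vale.Agent.P174.H717
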