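import Mathlib.Analysis.CStarAlgebra.Matrix
import Mathlib.Analysis.InnerProductSpace.Adjoint
import Mathlib.LinearAlgebra.Trace

/-!
# The orthogonal projection onto the fixed space of a matrix
-/

namespace Vale.Agent.P174.H717

open Matrix

variable {D : Type*} [Fintype D] [DecidableEq D]

theorem exists_proj (a : Matrix D D ℂ) : ∃ q : Matrix D D ℂ, star q = q ∧ q * q = q ∧
    a * q = q ∧ q.trace = (Module.finrank ℂ (LinearMap.ker (Matrix.toLin' (a - 1))) : ℂ) := by
  set E := EuclideanSpace ℂ D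
  set K : Submodule ℂ E := LinearMap.ker (toEuclideanLin (a - 1)) with hK
  set p : E →L[ℂ] E := K.starProjection with hp
  set Φ : Matrix D D ℂ ≃⋆ₐ[ℂ] (E →L[ℂ] E) := toEuclideanCLM with hΦ
  have hpp : p * p = p := K.isIdempotentElem_starProjection
  have hps : star p = p := isSelfAdjoint_starProjection K
  refine ⟨Φ.symm p, ?_, ?_, ?_, ?_⟩
  · rw [← map_star, hps]
  · rw [← map_mul, hpp]
  · apply Φ.injective
    change Φ (a * Φ.symm p) = Φ (Φ.symm p)
    rw [map_mul, StarAlgEquiv.apply_symm_apply]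
    ext1 v
    have h1 : p v ∈ K := K.starProjection_apply_mem v
    rw [hK, LinearMap.mem_ker] at h1
    have h2 : Φ (a - 1) (p v) = 0 := h1
    rw [map_sub, map_one] at h2
    exact sub_eq_zero.1 h2
  · have hproj : LinearMap.IsProj K (p : E →ₗ[ℂ] E) :=
      ⟨fun x => K.starProjection_apply_mem x, fun x hx => K.starProjection_eq_self_iff.2 hx⟩
    have h1 := hproj.trace
    have h2 : LinearMap.trace ℂ E (p : E →ₗ[ℂ] E) = (Φ.symm p).trace := by
      rw [LinearMap.trace_eq_matrix_trace ℂ (EuclideanSpace.basisFun D ℂ).toBasis]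
      congr 1
    rw [← h2, h1]
    congr 1
    -- the two kernels are isomorphic
    refine LinearEquiv.finrank_eq ?_
    refine LinearEquiv.ofSubmodules (WithLp.linearEquiv 2 ℂ (D → ℂ)) K
      (LinearMap.ker (Matrix.toLin' (a - 1))) ?_
    ext v
    simp only [Submodule.mem_map, LinearMap.mem_ker, hK]
    constructor
    · rintro ⟨w, hw, rfl⟩
      exact congrArg WithLp.ofLp hw
    · intro hv
      exact ⟨WithLp.toLp 2 v, congrArg (WithLp.toLp 2) hv, rfl⟩

end Vale.Agent.P174.H717
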