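import Vale.Agent.P174.H717.Tr
import Mathlib.Analysis.SpecialFunctions.Trigonometric.Bounds
import Mathlib.Analysis.Calculus.MeanValue

/-!
# The sawtooth
-/

namespace Vale.Agent.P174.H717

open Complex Finset Filter Topology

theorem saw_neg (n : ℕ) (x : ℝ) : saw n (-x) = -saw n x :=
  GG_neg n x _ fun _ => by simp

theorem saw_pi (n : ℕ) : saw n Real.pi = 0 := by
  unfold saw GG
  have : ∀ k ∈ Ico 1 n, ((I * (cf n k : ℂ) / k) * exp (I * k * Real.pi) * 1).re = 0 := by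
    intro k _
    have h1 : exp (I * k * Real.pi) = (((-1 : ℝ) ^ k : ℝ) : ℂ) := by
      have : I * k * Real.pi = (k : ℂ) * (Real.pi * I) := by ring
      rw [this, exp_nat_mul, exp_pi_mul_I]
      push_cast
      rfl
    have h2 : (I * (cf n k : ℂ) / k) * exp (I * k * Real.pi) * 1 =
        ((cf n k / k * (-1) ^ k : ℝ) : ℂ) * I := by
      rw [h1]
      push_cast
      ring
    rw [h2, re_ofReal_mul, I_re, mul_zero]
  rw [re_sum, sum_eq_zero this, mul_zero]

/-- The Fejer kernel. -/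
theorem fejer_eq {n : ℕ} (hn : 0 < n) (x : ℝ) :
    1 + FF n x (fun _ => 1) = ‖∑ j ∈ range n, exp (I * x) ^ j‖ ^ 2 / n := by
  have hZ : star (exp (I * x)) * exp (I * x) = 1 := by
    rw [RCLike.star_def, ← exp_conj, ← exp_add]
    simp
  have h1 := geo_star_mul hZ n
  have h2 : star (geo n (exp (I * x))) * geo n (exp (I * x)) =
      ((‖∑ j ∈ range n, exp (I * x) ^ j‖ ^ 2 : ℝ) : ℂ) := by
    unfold geo
    rw [RCLike.star_def, mul_comm, mul_conj, normSq_eq_norm_sq]
  rw [h2] at h1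
  have h3 := congrArg re h1
  rw [ofReal_re] at h3
  have hn0 : (n : ℝ) ≠ 0 := by positivity
  rw [h3]
  unfold FF
  rw [eq_div_iff hn0, add_re, natCast_re, add_mul, one_mul, re_sum, re_sum, add_comm]
  rw [add_comm (n : ℝ)]
  congr 1
  rw [mul_sum, sum_mul]
  refine sum_congr rfl fun k _ => ?_
  have e1 : exp (I * k * x) = exp (I * x) ^ k := by
    rw [← exp_nat_mul]
    congr 1
    ring
  have e2 : (n : ℂ) - k = ((n - k : ℝ) : ℂ) := by push_cast; rfl
  rw [e1, mul_one, smul_eq_mul, e2, re_ofReal_mul, re_ofReal_mul, add_re, ← star_pow,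
    RCLike.star_def, conj_re]
  unfold cf
  field_simp
  ring

theorem fejer_nonneg {n : ℕ} (hn : 0 < n) (x : ℝ) : 0 ≤ 1 + FF n x (fun _ => 1) := by
  rw [fejer_eq hn]
  positivity

theorem fejer_le {n : ℕ} (hn : 0 < n) {x m : ℝ} (hm : 0 < m) (h : m ≤ ‖exp (I * x) - 1‖) :
    1 + FF n x (fun _ => 1) ≤ 4 / m ^ 2 / n := by
  rw [fejer_eq hn]
  have hn0 : (0 : ℝ) < n := by positivity
  refine div_le_div_of_nonneg_right ?_ hn0.le
  have h1 : (∑ j ∈ range n, exp (I * x) ^ j) * (exp (I * x) - 1) = exp (I * x) ^ n - 1 :=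
    geom_sum_mul _ _
  have h2 : ‖exp (I * x) ^ n - 1‖ ≤ 2 := by
    refine (norm_sub_le _ _).trans ?_
    rw [norm_pow, norm_exp_I_mul_ofReal, one_pow, norm_one]
    norm_num
  have h3 := congrArg norm h1
  rw [norm_mul] at h3
  have h4 : ‖∑ j ∈ range n, exp (I * x) ^ j‖ * m ≤ 2 := by
    calc _ ≤ ‖∑ j ∈ range n, exp (I * x) ^ j‖ * ‖exp (I * x) - 1‖ :=
          mul_le_mul_of_nonneg_left h (norm_nonneg _)
      _ ≤ 2 := by rw [h3]; exact h2
  rw [le_div_iff₀ (by positivity)]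
  have h5 := norm_nonneg (∑ j ∈ range n, exp (I * x) ^ j)
  calc ‖∑ j ∈ range n, exp (I * x) ^ j‖ ^ 2 * m ^ 2 =
        (‖∑ j ∈ range n, exp (I * x) ^ j‖ * m) ^ 2 := by ring
    _ ≤ 2 ^ 2 := by gcongr
    _ = 4 := by norm_num

theorem exp_ne_one {y : ℝ} (h0 : 0 < y) (h1 : y < 2 * Real.pi) : exp (I * y) - 1 ≠ 0 := by
  intro h
  rw [sub_eq_zero, exp_eq_one_iff] at h
  obtain ⟨n, hn⟩ := h
  have h2 : (y : ℂ) = n * (2 * Real.pi) := by
    have : I * (y : ℂ) = I * (n * (2 * Real.pi)) := by rw [hn]; ring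
    exact mul_left_cancel₀ I_ne_zero this
  have h3 : y = n * (2 * Real.pi) := by exact_mod_cast h2
  have hpi := Real.pi_pos
  have h4 : (0 : ℝ) < n := by
    by_contra hc
    have : (n : ℝ) * (2 * Real.pi) ≤ 0 := mul_nonpos_of_nonpos_of_nonneg (not_lt.1 hc) (by positivity)
    linarith
  have h5 : (n : ℝ) < 1 := by
    by_contra hc
    have : 2 * Real.pi ≤ (n : ℝ) * (2 * Real.pi) := le_mul_of_one_le_left (by positivity) (not_lt.1 hc)
    linarith
  have h6 : (0 : ℤ) < n := by exact_mod_cast h4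
  have h7 : n < (1 : ℤ) := by exact_mod_cast h5
  omega

/-- **Convergence of the sawtooth polynomials.** -/
theorem tendsto_saw {x : ℝ} (h0 : 0 < x) (h1 : x < 2 * Real.pi) :
    Tendsto (fun n => saw n x) atTop (𝓝 (x - Real.pi)) := by
  have hpi := Real.pi_pos
  have hsub : ∀ y ∈ Set.uIcc x Real.pi, 0 < y ∧ y < 2 * Real.pi := by
    intro y hy
    rw [Set.mem_uIcc] at hy
    rcases hy with hy | hy
    · exact ⟨by linarith, by linarith⟩
    · exact ⟨by linarith, by linarith⟩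
  obtain ⟨z, hz, hmin⟩ := isCompact_uIcc.exists_isMinOn (s := Set.uIcc x Real.pi)
    ⟨x, Set.left_mem_uIcc⟩ (f := fun y : ℝ => ‖exp (I * y) - 1‖) (by fun_prop)
  set m := ‖exp (I * z) - 1‖ with hm
  have hm0 : 0 < m := norm_pos_iff.2 (exp_ne_one (hsub z hz).1 (hsub z hz).2)
  have hbound : ∀ n : ℕ, 0 < n → ‖saw n x - (x - Real.pi)‖ ≤ 4 / m ^ 2 / n * |x - Real.pi| := by
    intro n hn
    have hd : ∀ y, HasDerivAt (fun y => saw n y - (y - Real.pi)) (-(1 + FF n y fun _ => 1)) y := by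
      intro y
      have := (hasDerivAt_GG n (fun _ => 1) y).sub ((hasDerivAt_id y).sub_const Real.pi)
      refine this.congr_deriv ?_
      ring
    have h2 := (convex_uIcc x Real.pi).norm_image_sub_le_of_norm_hasDerivWithin_le
      (f := fun y => saw n y - (y - Real.pi)) (fun y _ => (hd y).hasDerivWithinAt)
      (C := 4 / m ^ 2 / n) (fun y hy => by
        rw [norm_neg, Real.norm_of_nonneg (fejer_nonneg hn y)]
        exact fejer_le hn hm0 (hmin hy)) Set.right_mem_uIcc Set.left_mem_uIcc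
    simpa [saw_pi] using h2
  rw [tendsto_iff_norm_sub_tendsto_zero]
  have hlim : Tendsto (fun n : ℕ => 4 / m ^ 2 / (n : ℝ) * |x - Real.pi|) atTop (𝓝 0) := by
    have := (tendsto_const_div_atTop_nhds_zero_nat (4 / m ^ 2)).mul_const |x - Real.pi|
    rwa [zero_mul] at this
  refine squeeze_zero' (Eventually.of_forall fun n => norm_nonneg _) ?_ hlim
  filter_upwards [eventually_gt_atTop 0] with n hn
  exact hbound n hn

theorem tendsto_saw_neg {x : ℝ} (h0 : x < 0) (h1 : -(2 * Real.pi) < x) :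
    Tendsto (fun n => saw n x) atTop (𝓝 (x + Real.pi)) := by
  have h := (tendsto_saw (x := -x) (by linarith) (by linarith)).neg
  have e : -(-x - Real.pi) = x + Real.pi := by ring
  rw [e] at h
  refine h.congr fun n => ?_
  rw [saw_neg, neg_neg]

theorem GG_exp (n : ℕ) (s b : ℝ) : GG n s (fun k => exp (I * k * b)) = saw n (s + b) := by
  unfold saw GG
  congr 2
  refine sum_congr rfl fun k _ => ?_
  rw [mul_assoc, ← exp_add, mul_one]
  congr 2
  push_cast
  ring

theorem GG_dvd {q : ℕ} (hq : 0 < q) (m : ℕ) (s b : ℝ) :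
    GG (q * m) s (fun k => if q ∣ k then exp (I * k * b) else 0) =
      (q : ℝ)⁻¹ * saw m (q * (s + b)) := by
  unfold saw GG
  have hq0 : (q : ℂ) ≠ 0 := Nat.cast_ne_zero.2 hq.ne'
  have h1 : ∑ k ∈ Ico 1 (q * m), (I * (cf (q * m) k : ℂ) / k) * exp (I * k * s) *
      (if q ∣ k then exp (I * k * b) else 0) =
      ∑ k ∈ (Ico 1 (q * m)).filter (q ∣ ·), (I * (cf (q * m) k : ℂ) / k) * exp (I * k * s) *
        exp (I * k * b) := by
    rw [sum_filter]
    refine sum_congr rfl fun k _ => ?_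
    split_ifs
    · rfl
    · rw [mul_zero]
  have h2 : ∑ j ∈ Ico 1 m, ((q : ℝ)⁻¹ : ℂ) * ((I * (cf m j : ℂ) / j) *
      exp (I * j * ((q * (s + b) : ℝ) : ℂ)) * 1) =
      ∑ k ∈ (Ico 1 (q * m)).filter (q ∣ ·), (I * (cf (q * m) k : ℂ) / k) * exp (I * k * s) *
        exp (I * k * b) := by
    refine sum_nbij (fun j => q * j) ?_ ?_ ?_ ?_
    · intro j hj
      rw [mem_Ico] at hj
      rw [mem_filter, mem_Ico]
      exact ⟨⟨Nat.mul_pos hq (by omega), Nat.mul_lt_mul_of_pos_left hj.2 hq⟩, dvd_mul_right _ _⟩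
    · intro i _ j _ h
      exact Nat.eq_of_mul_eq_mul_left hq h
    · intro k hk
      rw [coe_filter, Set.mem_ofPred_eq, mem_Ico] at hk
      obtain ⟨⟨hk1, hk2⟩, j, rfl⟩ := hk
      refine ⟨j, ?_, rfl⟩
      rw [coe_Ico, Set.mem_Ico]
      refine ⟨?_, Nat.lt_of_mul_lt_mul_left hk2⟩
      rcases Nat.eq_zero_or_pos j with h0 | h0
      · subst h0
        omega
      · exact h0
    · intro j hj
      rw [mem_Ico] at hj
      have hj0 : (j : ℂ) ≠ 0 := Nat.cast_ne_zero.2 (by omega)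
      have hcf : cf (q * m) (q * j) = cf m j := by
        unfold cf
        push_cast
        have hq1 : (q : ℝ) ≠ 0 := Nat.cast_ne_zero.2 hq.ne'
        rw [mul_div_mul_left _ _ hq1]
      have hexp : exp (I * ((q * j : ℕ) : ℂ) * s) * exp (I * ((q * j : ℕ) : ℂ) * b) =
          exp (I * j * ((q * (s + b) : ℝ) : ℂ)) := by
        rw [← exp_add]
        congr 1
        push_cast
        ring
      rw [hcf, mul_assoc _ (exp _) (exp _), hexp]
      push_cast
      field_simp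
  rw [h1, ← h2, ← mul_sum, mul_left_comm]
  congr 1
  rw [← ofReal_inv, re_ofReal_mul]

theorem GG_zero (n : ℕ) (s : ℝ) {t : ℕ → ℂ} (ht : ∀ k, 0 < k → t k = 0) : GG n s t = 0 := by
  unfold GG
  have : ∀ k ∈ Ico 1 n, (I * (cf n k : ℂ) / k) * exp (I * k * s) * t k = 0 := by
    intro k hk
    rw [mem_Ico] at hk
    rw [ht k (by omega), mul_zero]
  rw [sum_eq_zero this, zero_re, mul_zero]

theorem GG_sum {ι : Type*} (S : Finset ι) (n : ℕ) (s : ℝ) (t : ι → ℕ → ℂ) :
    GG n s (fun k => ∑ d ∈ S, t d k) = ∑ d ∈ S, GG n s (t d) := by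
  classical
  induction S using Finset.induction_on with
  | empty =>
    simp only [sum_empty]
    exact GG_zero n s fun _ _ => rfl
  | insert d S hd ih =>
    rw [sum_insert hd, ← ih, ← GG_add]
    congr 1
    funext k
    rw [sum_insert hd]

end Vale.Agent.P174.H717
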