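import Vale.Agent.P174.H717.Alg
import Vale.Agent.P174.H717.Saw
import Vale.Agent.P174.H717.Proj

/-!
# The core inequality
-/

namespace Vale.Agent.P174.H717

open Complex Finset Filter Topology MonoidAlgebra

variable {G : Type*} [Group G] {D : Type*} [Fintype D] [DecidableEq D]

/-- The moments of a chain of reflections. -/
theorem chain_ineq {𝒜 : Type*} [Ring 𝒜] [StarRing 𝒜] [Algebra ℂ 𝒜] [StarModule ℂ 𝒜]
    {τ : 𝒜 →ₗ[ℂ] ℂ} (hτ : PosTr τ) {n : ℕ} (hn : 0 < n) (s : ℝ) (Qs : List 𝒜)
    (hQ : ∀ Q ∈ Qs, star Q = Q ∧ Q * Q = Q) :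
    ∀ A : 𝒜, star A * A = 1 →
      GG n s (fun k => τ ((A * (Qs.map fun Q => 1 - 2 * Q).prod) ^ k)) ≤
        GG n s (fun k => τ (A ^ k)) + Real.pi * (Qs.map fun Q => (τ Q).re).sum := by
  induction Qs with
  | nil =>
    intro A _
    simp
  | cons Q Qs ih =>
    intro A hA
    obtain ⟨h1, h2⟩ := hQ Q (List.mem_cons_self)
    have hu : star (1 - 2 * Q) * (1 - 2 * Q) = 1 := by
      have h3 : star (2 * Q) = 2 * Q := by
        rw [two_mul, star_add, h1]
      rw [star_sub, star_one, h3]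
      have h4 : (2 * Q) * (2 * Q) = 2 * (2 * Q) := by
        rw [two_mul Q, add_mul, mul_add, h2, two_mul (Q + Q)]
      rw [sub_mul, one_mul, mul_sub, mul_one, h4, two_mul (2 * Q)]
      abel
    have hA' : star (A * (1 - 2 * Q)) * (A * (1 - 2 * Q)) = 1 := by
      rw [star_mul, mul_assoc, ← mul_assoc (star A), hA, one_mul, hu]
    have h5 := ih (fun Q' hQ' => hQ Q' (List.mem_cons_of_mem _ hQ')) _ hA'
    have h6 := trace_ineq hτ hA h1 h2 hn s
    rw [List.map_cons, List.prod_cons, List.map_cons, List.sum_cons, ← mul_assoc, mul_add]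
    linarith

theorem saw_periodic (n : ℕ) : Function.Periodic (saw n) (2 * Real.pi) := by
  intro x
  unfold saw GG
  congr 2
  refine sum_congr rfl fun k _ => ?_
  congr 2
  rw [exp_eq_exp_iff_exists_int]
  refine ⟨k, ?_⟩
  push_cast
  ring

/-- Lower bound of the sawtooth. -/
theorem neg_pi_le_saw {n : ℕ} (hn : 0 < n) (x : ℝ) : -Real.pi ≤ saw n x := by
  have hpi := Real.pi_pos
  have hd : ∀ y, HasDerivAt (fun y => saw n y - (y - Real.pi)) (-(1 + FF n y fun _ => 1)) y := by
    intro y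
    have := (hasDerivAt_GG n (fun _ => 1) y).sub ((hasDerivAt_id y).sub_const Real.pi)
    refine this.congr_deriv ?_
    ring
  have hanti : Antitone fun y => saw n y - (y - Real.pi) :=
    antitone_of_deriv_nonpos (fun y => (hd y).differentiableAt) fun y => by
      rw [(hd y).deriv]
      have := fejer_nonneg hn y
      linarith
  have h0 : saw n 0 = 0 := by
    have := saw_neg n 0
    rw [neg_zero] at this
    linarith
  obtain ⟨y, hy, hxy⟩ := (saw_periodic n).exists_mem_Ico₀ (by positivity) x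
  rw [hxy]
  rcases le_total y Real.pi with h | h
  · have h1 := hanti h
    simp only [saw_pi, sub_self] at h1
    linarith [hy.1]
  · have h1 := hanti hy.2.le
    have h2 : saw n (2 * Real.pi) = 0 := by
      have := saw_periodic n 0
      rw [zero_add] at this
      rw [this, h0]
    simp only [h2] at h1
    linarith

theorem saw_le {n : ℕ} (hn : 0 < n) {x : ℝ} (hx : 0 ≤ x) : saw n x ≤ x := by
  have hd : ∀ y, HasDerivAt (fun y => saw n y - y) (-(1 + FF n y fun _ => 1)) y := by
    intro y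
    have := (hasDerivAt_GG n (fun _ => 1) y).sub (hasDerivAt_id y)
    refine this.congr_deriv ?_
    ring
  have hanti : Antitone fun y => saw n y - y :=
    antitone_of_deriv_nonpos (fun y => (hd y).differentiableAt) fun y => by
      rw [(hd y).deriv]
      have := fejer_nonneg hn y
      linarith
  have h1 := hanti hx
  have h2 : saw n 0 = 0 := by
    have := saw_neg n 0
    rw [neg_zero] at this
    linarith
  simp only [h2, sub_zero] at h1
  linarith

/-- The scalar matrices. -/
noncomputable def sc (a : Matrix D D ℂ) : Matrix D D (MonoidAlgebra ℂ G) :=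
  a.map (algebraMap ℂ (MonoidAlgebra ℂ G))

omit [DecidableEq D] in
theorem sc_mul (a b : Matrix D D ℂ) : (sc (a * b) : Matrix D D (MonoidAlgebra ℂ G)) =
    sc a * sc b := Matrix.map_mul

omit [Fintype D] in
theorem sc_one : (sc 1 : Matrix D D (MonoidAlgebra ℂ G)) = 1 :=
  Matrix.map_one _ (map_zero _) (map_one _)

theorem sc_pow (a : Matrix D D ℂ) (k : ℕ) : (sc (a ^ k) : Matrix D D (MonoidAlgebra ℂ G)) =
    sc a ^ k := by
  induction k with
  | zero => rw [pow_zero, pow_zero, sc_one]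
  | succ k ih => rw [pow_succ, pow_succ, sc_mul, ih]

omit [Fintype D] [DecidableEq D] in
theorem sc_star (a : Matrix D D ℂ) : (sc (star a) : Matrix D D (MonoidAlgebra ℂ G)) =
    star (sc a) := by
  ext1 i j
  simp only [sc, Matrix.map_apply, Matrix.star_apply]
  rw [Algebra.algebraMap_eq_smul_one, Algebra.algebraMap_eq_smul_one, star_smul, star_one]

omit [DecidableEq D] in
theorem trM_sc (a : Matrix D D ℂ) : trM (sc a : Matrix D D (MonoidAlgebra ℂ G)) = a.trace := by
  simp only [trM_apply, sc, Matrix.map_apply, Matrix.trace, Matrix.diag_apply]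
  refine sum_congr rfl fun d _ => ?_
  rw [Algebra.algebraMap_eq_smul_one, map_smul, one_def, tr0_single_one, smul_eq_mul, mul_one]

theorem GG_special {g0 : G} (hg : g0 ≠ 1) (s b : ℝ) :
    ∃ N > 0, ∀ m > 0, -(Real.pi / 2) ≤
      GG (N * m) s (fun k => tr0 (single g0 (exp (I * b)) ^ k)) := by
  classical
  have hpi := Real.pi_pos
  have ht : ∀ k : ℕ, tr0 (single g0 (exp (I * b)) ^ k) =
      if orderOf g0 ∣ k then exp (I * k * b) else 0 := by
    intro k
    rw [single_pow, tr0_single, ← exp_nat_mul]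
    simp only [orderOf_dvd_iff_pow_eq_one]
    split_ifs
    · congr 1
      ring
    · rfl
  simp only [ht]
  rcases Nat.eq_zero_or_pos (orderOf g0) with h0 | h0
  · refine ⟨1, one_pos, fun m _ => ?_⟩
    rw [GG_zero]
    · linarith
    · intro k hk
      rw [if_neg]
      rw [h0, zero_dvd_iff]
      omega
  · refine ⟨orderOf g0, h0, fun m hm => ?_⟩
    rw [GG_dvd h0]
    have h2 : 2 ≤ orderOf g0 := by
      have : orderOf g0 ≠ 1 := fun h => hg (orderOf_eq_one_iff.1 h)
      omega
    have h3 : (2 : ℝ) ≤ orderOf g0 := by exact_mod_cast h2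
    have h4 := neg_pi_le_saw hm (orderOf g0 * (s + b))
    have h5 : (orderOf g0 : ℝ)⁻¹ ≤ 2⁻¹ := inv_anti₀ (by norm_num) h3
    have h6 : (0 : ℝ) ≤ (orderOf g0 : ℝ)⁻¹ := by positivity
    calc -(Real.pi / 2) = 2⁻¹ * (-Real.pi) := by ring
      _ ≤ (orderOf g0 : ℝ)⁻¹ * (-Real.pi) := by nlinarith
      _ ≤ _ := mul_le_mul_of_nonneg_left h4 h6

/-- **The core theorem.** -/
theorem AN0 (d0 : D) (g0 : G) (K : ℕ)
    (H : ∀ ε₀ > 0, ∃ (a J : Matrix D D ℂ) (Qs : List (Matrix D D (MonoidAlgebra ℂ G)))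
      (β : D → ℝ), star a * a = 1 ∧ star J * J = 1 ∧ J * a = star a * J ∧
      K ≤ Module.finrank ℂ (LinearMap.ker (Matrix.toLin' (a - 1))) ∧
      (∀ Q ∈ Qs, star Q = Q ∧ Q * Q = Q) ∧
      (Qs.map fun Q => (trM Q).re).sum + 2 ≤ Fintype.card D + K ∧
      (∀ d, d ≠ d0 → -ε₀ < β d ∧ β d < 0) ∧
      sc a * (Qs.map fun Q => 1 - 2 * Q).prod =
        Matrix.diagonal fun d => if d = d0 then single g0 (exp (I * β d))
          else single 1 (exp (I * β d))) : g0 = 1 := by
  classical
  by_contra hg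
  have hpi := Real.pi_pos
  have hD : (1 : ℝ) ≤ Fintype.card D := by
    exact_mod_cast Fintype.card_pos_iff.2 ⟨d0⟩
  set cD : ℝ := (Fintype.card D : ℝ) with hcD
  set ε₀ : ℝ := Real.pi / (8 * cD) with hε₀
  have hε₀pos : 0 < ε₀ := by positivity
  have hε₀le : ε₀ * cD = Real.pi / 8 := by
    rw [hε₀]
    field_simp
  obtain ⟨a, J, Qs, β, ha, hJ, hJa, hK, hQs, htr, hβ, hprod⟩ := H ε₀ hε₀pos
  obtain ⟨q, hq1, hq2, hq3, hq4⟩ := exists_proj a
  set r : ℕ := Module.finrank ℂ (LinearMap.ker (Matrix.toLin' (a - 1))) with hr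
  -- a small shift
  obtain ⟨η, hη0, hη1, hη2⟩ : ∃ η : ℝ, 0 < η ∧ η < ε₀ ∧ ∀ d, d ≠ d0 → η + β d < 0 := by
    have h1 : ∀ᶠ η in 𝓝[>] (0 : ℝ), η < ε₀ :=
      (eventually_lt_nhds hε₀pos).filter_mono nhdsWithin_le_nhds
    have h2 : ∀ d, d ≠ d0 → ∀ᶠ η in 𝓝[>] (0 : ℝ), η + β d < 0 := by
      intro d hd
      have h3 : ∀ᶠ η in 𝓝 (0 : ℝ), η < -β d := eventually_lt_nhds (by linarith [(hβ d hd).2])
      filter_upwards [h3.filter_mono nhdsWithin_le_nhds] with η hη
      linarith
    have h3 : ∀ᶠ η in 𝓝[>] (0 : ℝ), ∀ d, d ≠ d0 → η + β d < 0 := by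
      rw [eventually_all]
      intro d
      by_cases hd : d = d0
      · exact Eventually.of_forall fun η h => absurd hd h
      · filter_upwards [h2 d hd] with η hη _
        exact hη
    obtain ⟨η, ⟨hη1, hη2⟩, hη0⟩ := ((h1.and h3).and self_mem_nhdsWithin).exists
    exact ⟨η, hη0, hη1, hη2⟩
  obtain ⟨N, hN, hspec⟩ := GG_special hg η (β d0)
  -- the inequality for every `m`
  have hA : star (sc a : Matrix D D (MonoidAlgebra ℂ G)) * sc a = 1 := by
    rw [← sc_star, ← sc_mul, ha, sc_one]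
  have htrace : ∀ k : ℕ, trM ((sc a : Matrix D D (MonoidAlgebra ℂ G)) ^ k) = (a ^ k).trace := by
    intro k
    rw [← sc_pow, trM_sc]
  have hreal : ∀ k : ℕ, (starRingEnd ℂ) (trM ((sc a : Matrix D D (MonoidAlgebra ℂ G)) ^ k)) =
      trM ((sc a : Matrix D D (MonoidAlgebra ℂ G)) ^ k) := by
    intro k
    rw [htrace]
    have h1 : ∀ k : ℕ, J * a ^ k = star a ^ k * J := by
      intro k
      induction k with
      | zero => simp
      | succ k ih => rw [pow_succ, ← mul_assoc, ih, mul_assoc, hJa, ← mul_assoc, ← pow_succ]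
    have hJ' : J * star J = 1 := mul_eq_one_comm.1 hJ
    have h2 : (a ^ k).trace = (star a ^ k).trace := by
      calc (a ^ k).trace = (star J * J * a ^ k).trace := by rw [hJ, one_mul]
        _ = (J * a ^ k * star J).trace := by rw [mul_assoc, Matrix.trace_mul_comm]
        _ = (star a ^ k).trace := by rw [h1, mul_assoc, hJ', mul_one]
    have h3 : (star a ^ k).trace = (starRingEnd ℂ) ((a ^ k).trace) := by
      rw [← star_pow]
      exact Matrix.trace_conjTranspose _
    rw [← h3, ← h2]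
  have hQ1 : star (sc q : Matrix D D (MonoidAlgebra ℂ G)) = sc q := by rw [← sc_star, hq1]
  have hQ2 : (sc q : Matrix D D (MonoidAlgebra ℂ G)) * sc q = sc q := by rw [← sc_mul, hq2]
  have hQ3 : (sc a : Matrix D D (MonoidAlgebra ℂ G)) * sc q = sc q := by rw [← sc_mul, hq3]
  have hQ4 : (trM (sc q : Matrix D D (MonoidAlgebra ℂ G))).re = r := by
    rw [trM_sc, hq4, natCast_re]
  have h1tr : (trM (1 : Matrix D D (MonoidAlgebra ℂ G))).re = cD := by
    rw [← sc_one, trM_sc, Matrix.trace_one, natCast_re]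
  have hineq : ∀ m : ℕ, 0 < m →
      (∑ d ∈ univ.erase d0, saw (N * m) (η + β d)) - Real.pi / 2 ≤
        η * (cD - r) + r * saw (N * m) η + Real.pi * (cD + K - 2) := by
    intro m hm
    have hn : 0 < N * m := Nat.mul_pos hN hm
    have h1 := chain_ineq posTr_trM hn η Qs hQs (sc a) hA
    rw [hprod] at h1
    have h2 := scalar_est posTr_trM hA hQ1 hQ2 hQ3 hreal hn hη0.le
    rw [hQ4, h1tr] at h2
    have h3 : GG (N * m) η (fun k => trM ((Matrix.diagonal fun d => if d = d0 then
        single g0 (exp (I * β d)) else single 1 (exp (I * β d))) ^ k)) =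
        GG (N * m) η (fun k => tr0 (single g0 (exp (I * β d0)) ^ k)) +
        ∑ d ∈ univ.erase d0, saw (N * m) (η + β d) := by
      have h4 : ∀ k : ℕ, trM ((Matrix.diagonal fun d => if d = d0 then
          single g0 (exp (I * β d)) else single 1 (exp (I * β d))) ^ k) =
          ∑ d, tr0 ((if d = d0 then single g0 (exp (I * β d))
            else single 1 (exp (I * β d))) ^ k) := by
        intro k
        rw [Matrix.diagonal_pow, trM_apply]
        refine sum_congr rfl fun d _ => ?_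
        rw [Matrix.diagonal_apply_eq, Pi.pow_apply]
      simp only [h4]
      rw [GG_sum, ← add_sum_erase univ _ (mem_univ d0)]
      congr 1
      · simp only [if_true]
      · refine sum_congr rfl fun d hd => ?_
        rw [← GG_exp]
        congr 1
        funext k
        rw [if_neg (ne_of_mem_erase hd), single_pow, one_pow, tr0_single_one, ← exp_nat_mul]
        congr 1
        ring
    rw [h3] at h1
    have h4 := hspec m hm
    have h5 : Real.pi * (Qs.map fun Q => (trM Q).re).sum ≤ Real.pi * (cD + K - 2) :=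
      mul_le_mul_of_nonneg_left (by linarith) hpi.le
    linarith
  -- the limit
  have hNm : Tendsto (fun m : ℕ => N * m) atTop atTop := tendsto_id.const_mul_atTop' hN
  have hL : Tendsto (fun m : ℕ => (∑ d ∈ univ.erase d0, saw (N * m) (η + β d)) - Real.pi / 2)
      atTop (𝓝 ((∑ d ∈ univ.erase d0, (η + β d + Real.pi)) - Real.pi / 2)) := by
    refine Tendsto.sub_const (tendsto_finsetSum _ fun d hd => ?_) _
    have hd' := ne_of_mem_erase hd
    have h1 : -(2 * Real.pi) < η + β d := by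
      have h2 : ε₀ ≤ ε₀ * cD := le_mul_of_one_le_right hε₀pos.le hD
      linarith [(hβ d hd').1]
    exact (tendsto_saw_neg (hη2 d hd') h1).comp hNm
  have hR : Tendsto (fun m : ℕ => η * (cD - r) + r * saw (N * m) η + Real.pi * (cD + K - 2))
      atTop (𝓝 (η * (cD - r) + r * (η - Real.pi) + Real.pi * (cD + K - 2))) := by
    refine Tendsto.add_const _ (Tendsto.const_add _ (Tendsto.const_mul _ ?_))
    have h2 : ε₀ ≤ ε₀ * cD := le_mul_of_one_le_right hε₀pos.le hD
    exact (tendsto_saw hη0 (by linarith)).comp hNm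
  have hfin := le_of_tendsto_of_tendsto hL hR
    ((eventually_gt_atTop 0).mono fun m hm => hineq m hm)
  have hcard : ((univ.erase d0).card : ℝ) = cD - 1 := by
    rw [card_erase_of_mem (mem_univ _), card_univ, Nat.cast_sub (Fintype.card_pos_iff.2 ⟨d0⟩)]
    simp [hcD]
  have hsum : (cD - 1) * (Real.pi - ε₀) ≤ ∑ d ∈ univ.erase d0, (η + β d + Real.pi) := by
    rw [← hcard, ← nsmul_eq_mul]
    refine card_nsmul_le_sum _ _ _ fun d hd => ?_
    linarith [(hβ d (ne_of_mem_erase hd)).1]
  have hKr : (K : ℝ) ≤ r := by exact_mod_cast hK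
  have h1 : Real.pi * K ≤ Real.pi * r := mul_le_mul_of_nonneg_left hKr hpi.le
  have h2 : η * cD ≤ ε₀ * cD := mul_le_mul_of_nonneg_right hη1.le (by linarith)
  nlinarith

end Vale.Agent.P174.H717
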