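import Vale.Agent.P174.H717.Ker
import Vale.Agent.P174.H834.Build
import Vale.Agent.P174.H49.Glue

/-!
# The last step: the value of a balanced product of conjugates is trivial
-/

namespace Vale.Agent.P174.H717

open Vale.Agent.P174.H834 (Mn IsSw Im lab HH ee WD Chain Matching Dl nv Let)
open Vale.Agent.P174.H834.Mn (mat mat_apply mat_mul mat_one sw dg rot)

section

variable {G : Type*} [Group G] {R B M I : Type*} {N : ℕ} [DecidableEq R] [DecidableEq B]
  [DecidableEq M] [Fintype R] [Fintype B] [Fintype M]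

/-- `asmD` with an arbitrary instance. -/
theorem asmD' (dec : DecidableEq (Dt R B M N)) (nxt : Equiv.Perm R) (c : R → G) (rel : R → I)
    (hrel : ∀ r, rel (nxt r) = rel r)
    (m0 : M) (g0 : G) (K : ℕ) (ι : Equiv.Perm (Dt R B M N))
    (θ : Dt R B M N → Multiplicative ℤ) (k : Multiplicative ℤ)
    (Rs : List (Mn (Dt R B M N) (HH G)))
    (hι : ∀ d, ι (ι d) = d) (hθ : ∀ d, θ (ι d) = (θ d)⁻¹) (hRs : ∀ T ∈ Rs, @IsSw _ _ dec _ T)
    (hchain : Rs.prod * (PhiD nxt c * Im ι (lab G θ)) =
      dg fun d => @ite _ (d = Sum.inr (Sum.inr m0)) (dec _ _) (g0, k) (ee G)⁻¹)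
    (hcnt : Rs.length + 2 ≤ Fintype.card R * N + 2 * Fintype.card B + Fintype.card M + K)
    (hP : ∀ ϑ : Dt R B M N → ℝ, (∀ d, ϑ (ι d) = -ϑ d) → ∃ π : I → Matrix (Fin N) (Fin N) ℂ,
      (∀ i, star (π i) * π i = 1) ∧
      K ≤ Module.finrank ℂ (LinearMap.ker (Matrix.toLin' (PiM rel π * IM ι ϑ - 1)))) :
    g0 = 1 := by
  obtain rfl : dec = instDecidableEqSum := Subsingleton.elim _ _
  exact asmD nxt c rel hrel m0 g0 K ι θ k Rs hι hθ hRs hchain hcnt hP

end

variable {m n N : ℕ} {G : Type*} [Group G]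

/-- The cyclic successor. -/
def nxt (W : WD m n N G) : Equiv.Perm W.R where
  toFun r := ⟨r.1, ⟨W.nx r.1 r.2, W.nx_lt _ _⟩⟩
  invFun r := ⟨r.1, ⟨W.pv r.1 r.2, W.pv_lt _ _⟩⟩
  left_inv := by
    rintro ⟨i, ⟨k, hk⟩⟩
    simp only [WD.nx, WD.pv]
    congr 2
    rcases Nat.lt_or_ge (k + 1) (W.ℓ i) with h | h
    · rw [Nat.mod_eq_of_lt h]
      have : k + 1 + W.ℓ i - 1 = k + W.ℓ i := by omega
      rw [this, Nat.add_mod_right, Nat.mod_eq_of_lt hk]
    · have h' : k + 1 = W.ℓ i := by omega
      rw [h', Nat.mod_self, Nat.mod_eq_of_lt] <;> omega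
  right_inv := by
    rintro ⟨i, ⟨k, hk⟩⟩
    simp only [WD.nx, WD.pv]
    congr 2
    rcases Nat.eq_zero_or_pos k with h | h
    · subst h
      have h1 : (0 + W.ℓ i - 1) % W.ℓ i = W.ℓ i - 1 := by
        rw [Nat.mod_eq_of_lt] <;> omega
      have h2 : W.ℓ i - 1 + 1 = W.ℓ i := by omega
      rw [h1, h2, Nat.mod_self]
    · have h1 : (k + W.ℓ i - 1) % W.ℓ i = k - 1 := by
        have : k + W.ℓ i - 1 = (k - 1) + W.ℓ i := by omega
        rw [this, Nat.add_mod_right, Nat.mod_eq_of_lt (by omega)]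
      have h2 : k - 1 + 1 = k := by omega
      rw [h1, h2, Nat.mod_eq_of_lt hk]

/-- Number of the elements of a complete list satisfying a property. -/
theorem length_filter {D : Type*} [Fintype D] [DecidableEq D] {l : List D} (hn : l.Nodup)
    (hm : ∀ d, d ∈ l) (p : D → Bool) :
    (l.filter p).length = Fintype.card {d // p d = true} := by
  rw [← List.toFinset_card_of_nodup (hn.filter p), Fintype.card_subtype]
  congr 1
  ext d
  simp [hm]

theorem fin_core (hSol : T2.SolStmt (Fin m)) (W : WD m n N G) {g : G}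
    (hval : (W.Sl.map fun s => W.uv s * W.sv s * (W.uv s)⁻¹).prod = Monoid.Coprod.inl g)
    (hrank : (Matrix.of fun (i : Fin m) (j : Fin n) => ((∑ k : Fin (W.ℓ i),
      (if (W.y i k).1 = j then H834.sgn (W.y i k).2 else 0) : ℤ) : ℚ)).rank = m) : g = 1 := by
  obtain ⟨x, ⟨Rs0, hlen0, hRs0, hx0⟩, hxσ, hxc⟩ := W.build
  have hev : H834.ev W.lam W.cH (W.m0 :: W.L) = Monoid.Coprod.inl g := by
    rw [W.val_L, hval]
  obtain ⟨ι, θ, k, Rs, hM, hRs, hlen, hchain⟩ :=
    H834.reduce W.lam W.m0 rfl g W.L.length W.L rfl W.nodup_L W.cH hev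
  have hx : x = PhiD (nxt W) (fun r => W.c r.1 r.2) := by
    refine Mn.ext' (fun d => ?_) (fun d => ?_)
    · rw [hxσ]
      rcases d with ⟨r, (_ | _), p⟩ | ⟨b, s⟩ | z <;> rfl
    · rw [hxc]
      rcases d with ⟨r, (_ | _), p⟩ | ⟨b, s⟩ | z <;> rfl
  have hall : ∀ d, d ∈ W.m0 :: W.L := W.mem_all
  have hne : ∀ d, d ≠ W.m0 → d ∈ W.L := by
    intro d hd
    rcases List.mem_cons.1 (hall d) with h | h
    · exact absurd h hd
    · exact h
  have hcard1 : W.L.length + 1 = 2 * (Fintype.card W.R * N) + 2 * Fintype.card W.B +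
      Fintype.card W.M := by
    have h1 := length_filter W.nodup_L hall fun _ => true
    rw [List.filter_true, List.length_cons] at h1
    rw [h1, Fintype.card_congr (Equiv.subtypeUnivEquiv fun _ => rfl)]
    have h2 : Fintype.card W.D = Fintype.card (Dt W.R W.B W.M N) := by
      congr 1
    rw [h2, Fintype.card_sum, Fintype.card_sum, Fintype.card_prod, Fintype.card_prod,
      Fintype.card_prod, Fintype.card_bool, Fintype.card_fin]
    ring
  have hcard2 : (W.L.filter fun d => (W.lam d).isNone).length + 1 = Fintype.card W.M := by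
    have h1 := length_filter W.nodup_L hall fun d => (W.lam d).isNone
    have h3 : (W.lam W.m0).isNone = true := rfl
    rw [List.filter_cons_of_pos (p := fun d => (W.lam d).isNone) h3, List.length_cons] at h1
    rw [h1]
    symm
    refine Fintype.card_congr (Equiv.ofBijective
      (fun z : W.M => (⟨Sum.inr (Sum.inr z), rfl⟩ : {d // (W.lam d).isNone = true})) ⟨?_, ?_⟩)
    · intro z z' h
      exact Sum.inr_injective (Sum.inr_injective (Subtype.ext_iff.1 h))
    · rintro ⟨⟨r, (_ | _), p⟩ | ⟨b, s⟩ | z, h⟩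
      · simp [WD.lam] at h
      · simp [WD.lam] at h
      · simp [WD.lam] at h
      · exact ⟨z, rfl⟩
  have hcard3 : Fintype.card W.M = 2 * Fintype.card W.Q + 1 := by
    rw [Fintype.card_sum, Fintype.card_prod, Fintype.card_bool, Fintype.card_unit]
    ring
  have hιι := hM.inv
  have hk := W.count_k
  have hchain' : (Rs ++ Rs0).prod * (PhiD (nxt W) (fun r => W.c r.1 r.2) * Im ι (lab G θ)) =
      dg fun d => if d = W.m0 then (g, k) else (ee G)⁻¹ := by
    rw [List.prod_append, ← hx, mul_assoc, ← mul_assoc Rs0.prod, ← hx0, hchain, Dl]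
    congr 1
    funext d
    by_cases h : d = W.m0
    · rw [if_pos h, if_pos h]
    · rw [if_neg h, if_neg h, if_pos (hne d h)]
  refine asmD' inferInstance (nxt W) (fun r => W.c r.1 r.2) (fun r => r.1) (fun r => rfl)
    (Sum.inr ()) g (2 * (N * m) + Fintype.card W.M) ι θ k (Rs ++ Rs0) hιι hM.anti ?_ hchain' ?_ ?_
  · intro T hT
    rcases List.mem_append.1 hT with h | h
    · exact hRs T h
    · exact hRs0 T h
  · rw [List.length_append, hlen0, hk]
    have e1 : 2 * m * N = 2 * (N * m) := by ring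
    rw [e1]
    generalize Fintype.card W.M = cM at *
    generalize Fintype.card W.B = cB at *
    generalize Fintype.card W.R * N = cR at *
    omega
  · intro ϑ hϑ
    have hr : (Matrix.of fun (i : Fin m) (j : Fin n) => ((∑ r : W.R, if r.1 = i ∧
        (W.y r.1 r.2).1 = j then H834.sgn (W.y r.1 r.2).2 else 0 : ℤ) : ℚ)).rank =
          Fintype.card (Fin m) := by
      rw [Fintype.card_fin]
      refine Eq.trans (congrArg Matrix.rank ?_) hrank
      ext i j
      rw [Matrix.of_apply, Matrix.of_apply]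
      congr 1
      rw [Fintype.sum_sigma, Finset.sum_eq_single i]
      · simp
      · intro b _ hb
        simp [hb]
      · intro h
        exact absurd (Finset.mem_univ _) h
    have h4 : ∀ d, W.lam (ι d) = (W.lam d).map fun x => (x.1, !x.2) := by
      intro d
      rcases hl : W.lam d with _ | y
      · rw [hM.fixed d hl, hl]
        rfl
      · have hd : d ∈ W.L := by
          apply hne
          rintro rfl
          cases hl
        rw [hM.letter d hd y hl]
        rfl
    have := ker_gen (N := N) hSol (fun r : W.R => r.1) (fun r => (W.y r.1 r.2).1)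
      (fun r => (W.y r.1 r.2).2) (fun b => W.bl b) hr ι hιι W.lam
      (fun r s a => by cases s <;> rfl) (fun b s => by cases s <;> rfl) (fun z => rfl) h4
      (fun z => hM.fixed _ rfl) ϑ hϑ
    rwa [Fintype.card_fin] at this

/-- **The statement needed by `howieOver_of_balanced`.** -/
theorem result_core (hSol : ∀ m, T2.SolStmt (Fin m)) (m n : ℕ) (w : Fin m → Words G n)
    (hw : FullRank ℚ w) (g : G) (N : ℕ) (L : List (Words G n × Fin m × Bool))
    (hL : (L.map (H49.fac w)).prod = Monoid.Coprod.inl g) (hc : ∀ i b, H49.cntE L i b = N) :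
    g = 1 := by
  obtain ⟨W, hW, hA⟩ := H834.exists_WD hw hL hc
  refine fin_core (hSol m) W hW ?_
  unfold FullRank at hw
  refine Eq.trans (congrArg Matrix.rank ?_) hw
  ext i j
  rw [Matrix.of_apply, Matrix.map_apply, hA]

/-- **Howie's conjecture from the word equations in unitary groups.** -/
theorem howie_of_sol (hSol : ∀ m, T2.SolStmt (Fin m)) (G : Type*) [Group G] : HowieOver ℚ G :=
  H49.howieOver_of_balanced fun m n w hw g N L hL hc => result_core hSol m n w hw g N L hL hc

end Vale.Agent.P174.H717
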