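import Vale.Agent.P174.H717.AsmD
import Vale.Agent.P174.H834.Data
import Vale.Agent.P174.H89.Dart3

/-!
# The kernel bound on the darts of the long word
-/

namespace Vale.Agent.P174.H717

open Complex Finset Module
open Vale.Agent.P174.H89 (PiMat Imat kerM mem_kerM finrank_kerM_submatrix)

section Flip

variable {I R B M : Type} {N : ℕ}

/-- Exchange of the two darts of some of the pairs. -/
def flp (β : B → Bool) : Equiv.Perm (Dt R B M N) where
  toFun
    | Sum.inl x => Sum.inl x
    | Sum.inr (Sum.inl (b, s)) => Sum.inr (Sum.inl (b, s == β b))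
    | Sum.inr (Sum.inr m) => Sum.inr (Sum.inr m)
  invFun
    | Sum.inl x => Sum.inl x
    | Sum.inr (Sum.inl (b, s)) => Sum.inr (Sum.inl (b, s == β b))
    | Sum.inr (Sum.inr m) => Sum.inr (Sum.inr m)
  left_inv := by
    rintro (x | ⟨b, s⟩ | m)
    · rfl
    · cases s <;> cases h : β b <;> simp [h]
    · rfl
  right_inv := by
    rintro (x | ⟨b, s⟩ | m)
    · rfl
    · cases s <;> cases h : β b <;> simp [h]
    · rfl

variable [DecidableEq R] [DecidableEq B] [DecidableEq M]

theorem PiM_flp (rel : R → I) (p : I → Matrix.unitaryGroup (Fin N) ℂ) (β : B → Bool)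
    (x y : Dt R B M N) :
    PiM rel (fun i => (p i : Matrix (Fin N) (Fin N) ℂ)) (flp β x) (flp β y) =
      PiMat rel p x y := by
  rcases x with ⟨r, (_ | _), a⟩ | ⟨b, s⟩ | m <;> rcases y with ⟨r', (_ | _), a'⟩ | ⟨b', s'⟩ | m' <;>
    simp [PiM, PiE, flp, PiMat]
  · by_cases h : r = r'
    · subst h
      simp
    · simp [h, Ne.symm h]
  · by_cases h : b = b'
    · subst h
      cases s <;> cases s' <;> cases h : β b <;> simp
    · simp [h]

end Flip

section Gen

variable {I X R B M : Type} {N : ℕ} [Fintype I] [DecidableEq I] [Fintype X] [DecidableEq X]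
  [Fintype R] [Fintype B] [Fintype M] [DecidableEq R] [DecidableEq B] [DecidableEq M]

theorem ker_gen (hSol : T2.SolStmt I) (rel : R → I) (var : R → X) (sg : R → Bool)
    (bl : B → X × Bool)
    (hrank : (Matrix.of fun (i : I) (x : X) =>
      ((∑ r : R, if rel r = i ∧ var r = x then H834.sgn (sg r) else 0 : ℤ) : ℚ)).rank =
        Fintype.card I)
    (ι : Equiv.Perm (Dt R B M N)) (hι : ∀ d, ι (ι d) = d)
    (lam : Dt R B M N → Option (X × Bool))
    (h1 : ∀ r s a, lam (Sum.inl (r, s, a)) = some (var r, if s then sg r else !sg r))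
    (h2 : ∀ b s, lam (Sum.inr (Sum.inl (b, s))) =
      some ((bl b).1, if s then (bl b).2 else !(bl b).2))
    (h3 : ∀ m, lam (Sum.inr (Sum.inr m)) = none)
    (h4 : ∀ d, lam (ι d) = (lam d).map fun x => (x.1, !x.2))
    (h5 : ∀ m, ι (Sum.inr (Sum.inr m)) = Sum.inr (Sum.inr m))
    (ϑ : Dt R B M N → ℝ) (hϑ : ∀ d, ϑ (ι d) = -ϑ d) :
    ∃ π : I → Matrix (Fin N) (Fin N) ℂ, (∀ i, star (π i) * π i = 1) ∧
      2 * (N * Fintype.card I) + Fintype.card M ≤
        finrank ℂ (LinearMap.ker (Matrix.toLin' (PiM rel π * IM ι ϑ - 1))) := by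
  set β : B → Bool := fun b => (bl b).2 with hβ
  set e : Equiv.Perm (Dt R B M N) := flp β with he
  have hee : ∀ d, e (e d) = d := by
    intro d
    exact e.symm_apply_apply d
  have hel : ∀ d, lam (e d) = H89.lab var sg (fun b => (bl b).1) d := by
    rintro (⟨r, s, a⟩ | ⟨b, s⟩ | m)
    · change lam (Sum.inl (r, s, a)) = some (var r, s == sg r)
      rw [h1]
      cases s <;> cases sg r <;> rfl
    · change lam (Sum.inr (Sum.inl (b, s == (bl b).2))) = some ((bl b).1, s)
      rw [h2]
      cases s <;> cases (bl b).2 <;> rfl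
    · change lam (Sum.inr (Sum.inr m)) = none
      rw [h3]
  have hem : ∀ m, e (Sum.inr (Sum.inr m)) = Sum.inr (Sum.inr m) := fun m => rfl
  have hM : H89.Match var sg (fun b => (bl b).1) (fun d => e (ι (e d)))
      (fun d => exp (Complex.I * (ϑ (e d) : ℂ))) := by
    refine ⟨?_, ?_, ?_, ?_, ?_, ?_⟩
    · intro d
      rw [hee, hι, hee]
    · intro d
      rw [← hel, hee, h4, hel]
    · intro d
      rw [hee, hϑ, RCLike.star_def, ← exp_conj, map_mul, conj_I, conj_ofReal]
      push_cast
      congr 1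
      ring
    · intro d
      rw [RCLike.star_def, ← exp_conj, ← exp_add, map_mul, conj_I, conj_ofReal]
      have : -Complex.I * (ϑ (e d) : ℂ) + Complex.I * (ϑ (e d) : ℂ) = 0 := by ring
      rw [this, exp_zero]
    · intro m
      rw [hem, h5, hem]
    · intro m
      have h6 := hϑ (Sum.inr (Sum.inr m))
      rw [h5] at h6
      have h7 : ϑ (Sum.inr (Sum.inr m)) = 0 := by linarith
      rw [hem, h7]
      simp
  obtain ⟨p, hp⟩ := H89.dart_T2 hSol rel var sg (fun b => (bl b).1) hrank _ _ hM
  refine ⟨fun i => (p i : Matrix (Fin N) (Fin N) ℂ), fun i => ?_, le_trans hp (le_of_eq ?_)⟩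
  · exact (Matrix.mem_unitaryGroup_iff'.1 (p i).2)
  · have h8 : PiMat rel p * Imat (fun d => e (ι (e d))) (fun d => exp (Complex.I * (ϑ (e d) : ℂ))) - 1 =
        (PiM rel (fun i => (p i : Matrix (Fin N) (Fin N) ℂ)) * IM ι ϑ - 1).submatrix e e := by
      have h9 : (PiM rel (fun i => (p i : Matrix (Fin N) (Fin N) ℂ))).submatrix e e =
          PiMat (B := B) (M := M) rel p := by
        ext x y
        rw [Matrix.submatrix_apply]
        exact PiM_flp rel p β x y
      have h10 : (IM ι ϑ).submatrix e e =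
          Imat (fun d => e (ι (e d))) (fun d => exp (Complex.I * (ϑ (e d) : ℂ))) := by
        ext x y
        rw [Matrix.submatrix_apply, IM_apply, Imat, Matrix.of_apply]
        by_cases h : ι (e x) = e y
        · rw [if_pos h, if_pos (by rw [h, hee])]
        · rw [if_neg h, if_neg]
          intro h'
          exact h (by rw [h', hee])
      have h11 : (1 : Matrix (Dt R B M N) (Dt R B M N) ℂ).submatrix e e = 1 :=
        Matrix.submatrix_one_equiv e
      rw [← h9, ← h10, Matrix.submatrix_mul_equiv]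
      conv_lhs => rw [← h11]
      rfl
    rw [h8]
    exact finrank_kerM_submatrix e _

end Gen

end Vale.Agent.P174.H717
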