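import Vale.Agent.P174.H717.Core
import Vale.Agent.P174.H834.Mn

/-!
# From labelled permutations to reflections in matrices over the group algebra
-/

namespace Vale.Agent.P174.H717

open Complex Finset MonoidAlgebra
open Vale.Agent.P174.H834 (Mn IsSw Chain)
open Vale.Agent.P174.H834.Mn (mat mat_apply mat_mul mat_one sw dg)

variable {G : Type*} [Group G] {D : Type*} [Fintype D] [DecidableEq D] {H : Type*} [Group H]

/-- The labels `(g, k)` as elements of the group algebra. -/
noncomputable def rho (ε : ℝ) : G × Multiplicative ℤ →* MonoidAlgebra ℂ G where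
  toFun h := single h.1 (exp (I * ((Multiplicative.toAdd h.2 : ℤ) : ℂ) * ε))
  map_one' := by
    simp [one_def]
  map_mul' a b := by
    rw [single_mul_single, ← exp_add]
    congr 2
    rw [Prod.snd_mul, toAdd_mul]
    push_cast
    ring

theorem rho_apply (ε : ℝ) (g : G) (k : ℤ) : rho ε (g, Multiplicative.ofAdd k) =
    single g (exp (I * (k : ℂ) * ε)) := rfl

theorem star_rho (ε : ℝ) (h : G × Multiplicative ℤ) : star (rho ε h) = rho ε h⁻¹ := by
  change star (single h.1 _) = single h.1⁻¹ _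
  rw [star_single, ← exp_conj]
  congr 2
  rw [map_mul, map_mul, conj_I, conj_ofReal]
  rw [Prod.snd_inv, toAdd_inv]
  push_cast
  simp

section
variable {ρ : H →* MonoidAlgebra ℂ G} (hρ : ∀ h, star (ρ h) = ρ h⁻¹)
include hρ

omit [Fintype D] in
theorem star_mat (x : Mn D H) : star (mat ρ x) = mat ρ x⁻¹ := by
  ext1 d e
  rw [Matrix.star_apply, mat_apply, mat_apply, H834.Mn.inv_σ, H834.Mn.inv_c]
  by_cases h : x.σ e = d
  · subst h
    rw [if_pos rfl, Equiv.symm_apply_apply, if_pos rfl, hρ]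
  · rw [if_neg h, star_zero, if_neg]
    intro h'
    exact h (by rw [← h', Equiv.apply_symm_apply])

theorem mat_unitary (x : Mn D H) : star (mat ρ x) * mat ρ x = 1 := by
  rw [star_mat hρ, ← mat_mul, inv_mul_cancel, mat_one]

end

omit [Fintype D] in
theorem sw_inv {a b : D} (hab : a ≠ b) (t : H) : (sw a b t)⁻¹ = sw a b t := by
  refine H834.Mn.ext' (fun d => ?_) (fun d => ?_)
  · rw [H834.Mn.inv_σ, H834.Mn.sw_σ]
    change (Equiv.swap a b).symm d = _
    rw [Equiv.symm_swap]
  · rw [H834.Mn.inv_c]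
    change ((sw a b t).c ((Equiv.swap a b).symm d))⁻¹ = _
    rw [Equiv.symm_swap, H834.Mn.sw_c, H834.Mn.sw_c]
    by_cases h1 : d = a
    · subst h1
      rw [Equiv.swap_apply_left, if_neg hab.symm, if_pos rfl, if_pos rfl, inv_inv]
    · by_cases h2 : d = b
      · subst h2
        rw [Equiv.swap_apply_right, if_pos rfl, if_neg hab.symm, if_pos rfl]
      · rw [Equiv.swap_apply_of_ne_of_ne h1 h2, if_neg h1, if_neg h2, inv_one]

/-- A selfadjoint unitary is a reflection. -/
theorem exists_refl {X : Matrix D D (MonoidAlgebra ℂ G)} (h1 : star X = X) (h2 : X * X = 1) :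
    ∃ Q, star Q = Q ∧ Q * Q = Q ∧ X = 1 - 2 * Q ∧
      trM Q = ((Fintype.card D : ℂ) - trM X) / 2 := by
  refine ⟨(2⁻¹ : ℂ) • (1 - X), ?_, ?_, ?_, ?_⟩
  · rw [star_smul, star_sub, star_one, h1, RCLike.star_def, map_inv₀, map_ofNat]
  · rw [smul_mul_smul_comm, sub_mul, one_mul, mul_sub, mul_one, h2, sub_sub_eq_add_sub,
      smul_sub, smul_sub]
    have e : (1 : Matrix D D (MonoidAlgebra ℂ G)) + 1 = (2 : ℂ) • 1 := by
      rw [two_smul]
    rw [sub_add_eq_add_sub, e]
    module
  · rw [mul_smul_comm, two_mul, ← two_smul ℂ (1 - X), smul_smul]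
    norm_num
  · have h3 : trM (1 : Matrix D D (MonoidAlgebra ℂ G)) = (Fintype.card D : ℂ) := by
      rw [← sc_one, trM_sc, Matrix.trace_one]
    rw [map_smul, map_sub, h3, smul_eq_mul]
    ring

theorem trM_sw {ρ : H →* MonoidAlgebra ℂ G} {a b : D} (hab : a ≠ b) (t : H) :
    trM (mat ρ (sw a b t)) = (Fintype.card D : ℂ) - 2 := by
  rw [trM_apply]
  have h1 : ∀ d, tr0 (mat ρ (sw a b t) d d) =
      1 - ((if d = a then (1 : ℂ) else 0) + (if d = b then (1 : ℂ) else 0)) := by
    intro d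
    rw [mat_apply, H834.Mn.sw_σ, H834.Mn.sw_c]
    by_cases h1 : d = a
    · subst h1
      rw [Equiv.swap_apply_left, if_neg hab.symm, if_pos rfl, if_neg hab]
      simp
    · by_cases h2 : d = b
      · subst h2
        rw [Equiv.swap_apply_right, if_neg hab, if_neg hab.symm, if_pos rfl]
        simp
      · rw [Equiv.swap_apply_of_ne_of_ne h1 h2, if_pos rfl, if_neg h1, if_neg h2, if_neg h1,
          if_neg h2, map_one, one_def, tr0_single_one]
        simp
  simp only [h1]
  rw [sum_sub_distrib, sum_add_distrib, sum_ite_eq' univ a, sum_ite_eq' univ b]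
  simp
  norm_num

/-- A chain of labelled transpositions. -/
theorem chain_list {ρ : H →* MonoidAlgebra ℂ G} (hρ : ∀ h, star (ρ h) = ρ h⁻¹)
    (Rs : List (Mn D H)) (hR : ∀ R ∈ Rs, IsSw R) :
    ∃ Qs : List (Matrix D D (MonoidAlgebra ℂ G)), (∀ Q ∈ Qs, star Q = Q ∧ Q * Q = Q) ∧
      (Qs.map fun Q => (trM Q).re).sum = Rs.length ∧
      mat ρ Rs.prod = (Qs.map fun Q => 1 - 2 * Q).prod := by
  induction Rs with
  | nil => exact ⟨[], by simp, by simp, by simp [mat_one]⟩
  | cons R Rs ih =>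
    obtain ⟨Qs, h1, h2, h3⟩ := ih fun R' h => hR R' (List.mem_cons_of_mem _ h)
    obtain ⟨a, b, t, hab, rfl⟩ := hR R List.mem_cons_self
    have h4 : star (mat ρ (sw a b t)) = mat ρ (sw a b t) := by
      rw [star_mat hρ, sw_inv hab]
    have h5 : mat ρ (sw a b t) * mat ρ (sw a b t) = 1 := by
      have := mat_unitary hρ (sw a b t)
      rwa [h4] at this
    obtain ⟨Q, q1, q2, q3, q4⟩ := exists_refl h4 h5
    refine ⟨Q :: Qs, ?_, ?_, ?_⟩
    · intro Q' hQ'
      rcases List.mem_cons.1 hQ' with h | h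
      · rw [h]
        exact ⟨q1, q2⟩
      · exact h1 Q' h
    · rw [List.map_cons, List.sum_cons, h2, q4, trM_sw hab, List.length_cons]
      have : (((Fintype.card D : ℂ) - ((Fintype.card D : ℂ) - 2)) / 2).re = 1 := by
        have : ((Fintype.card D : ℂ) - ((Fintype.card D : ℂ) - 2)) / 2 = 1 := by ring
        rw [this, one_re]
      rw [this]
      push_cast
      ring
    · rw [List.prod_cons, mat_mul, h3, q3, List.map_cons, List.prod_cons]

/-- The product of a scalar selfadjoint unitary and of a labelled permutation. -/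
theorem psi_refl {ρ : H →* MonoidAlgebra ℂ G} (hρ : ∀ h, star (ρ h) = ρ h⁻¹)
    {P : Matrix D D ℂ} (hP : star P = P) (hPP : P * P = 1) (x : Mn D H)
    (hx : (mat ρ x * sc P) * (mat ρ x * sc P) = 1) :
    ∃ Q, star Q = Q ∧ Q * Q = Q ∧ mat ρ x * sc P = 1 - 2 * Q ∧
      trM Q = ((Fintype.card D : ℂ) - ∑ d, P (x.σ d) d * tr0 (ρ (x.c d))) / 2 := by
  have hP' : star (sc P : Matrix D D (MonoidAlgebra ℂ G)) = sc P := by rw [← sc_star, hP]
  have hPP' : (sc P : Matrix D D (MonoidAlgebra ℂ G)) * sc P = 1 := by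
    rw [← sc_mul, hPP, sc_one]
  have h1 : star (mat ρ x * sc P) = mat ρ x * sc P := by
    have h2 : star (mat ρ x * sc P) * (mat ρ x * sc P) = 1 := by
      rw [star_mul, hP', mul_assoc, ← mul_assoc (star (mat ρ x)), mat_unitary hρ, one_mul, hPP']
    calc star (mat ρ x * sc P) = star (mat ρ x * sc P) *
          ((mat ρ x * sc P) * (mat ρ x * sc P)) := by rw [hx, mul_one]
      _ = mat ρ x * sc P := by rw [← mul_assoc, h2, one_mul]
  obtain ⟨Q, q1, q2, q3, q4⟩ := exists_refl h1 hx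
  refine ⟨Q, q1, q2, q3, ?_⟩
  rw [q4]
  congr 2
  rw [trM_apply]
  refine sum_congr rfl fun d _ => ?_
  rw [Matrix.mul_apply, sum_eq_single (x.σ d)]
  · rw [mat_apply, if_pos rfl, sc, Matrix.map_apply, Algebra.algebraMap_eq_smul_one,
      mul_smul_comm, mul_one, map_smul, smul_eq_mul]
  · intro e _ he
    rw [mat_apply, if_neg (Ne.symm he), zero_mul]
  · intro h
    exact absurd (mem_univ _) h

/-- Moving a unitary across a product of reflections. -/
theorem refl_conj {A : Matrix D D (MonoidAlgebra ℂ G)} (hA : star A * A = 1)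
    (hA' : A * star A = 1) (Qs : List (Matrix D D (MonoidAlgebra ℂ G))) :
    (Qs.map fun Q => 1 - 2 * Q).prod * A =
      A * ((Qs.map fun Q => star A * Q * A).map fun Q => 1 - 2 * Q).prod := by
  induction Qs with
  | nil => simp
  | cons Q Qs ih =>
    rw [List.map_cons, List.prod_cons, mul_assoc, ih, List.map_cons, List.map_cons,
      List.prod_cons, ← mul_assoc, ← mul_assoc]
    congr 1
    have e : A * (star A * Q * A) = Q * A := by
      rw [← mul_assoc, ← mul_assoc, hA', one_mul]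
    rw [sub_mul, one_mul, mul_sub, mul_one, two_mul Q, two_mul (star A * Q * A), mul_add, e,
      add_mul]

/-- **The core theorem**, with the reflections on the left. -/
theorem AN0' (d0 : D) (g0 : G) (K : ℕ)
    (H : ∀ ε₀ > 0, ∃ (a J : Matrix D D ℂ) (Qs : List (Matrix D D (MonoidAlgebra ℂ G)))
      (β : D → ℝ), star a * a = 1 ∧ star J * J = 1 ∧ J * a = star a * J ∧
      K ≤ Module.finrank ℂ (LinearMap.ker (Matrix.toLin' (a - 1))) ∧
      (∀ Q ∈ Qs, star Q = Q ∧ Q * Q = Q) ∧
      (Qs.map fun Q => (trM Q).re).sum + 2 ≤ Fintype.card D + K ∧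
      (∀ d, d ≠ d0 → -ε₀ < β d ∧ β d < 0) ∧
      (Qs.map fun Q => 1 - 2 * Q).prod * sc a =
        Matrix.diagonal fun d => if d = d0 then single g0 (exp (I * β d))
          else single 1 (exp (I * β d))) : g0 = 1 := by
  refine AN0 d0 g0 K fun ε₀ hε₀ => ?_
  obtain ⟨a, J, Qs, β, ha, hJ, hJa, hK, hQs, htr, hβ, hprod⟩ := H ε₀ hε₀
  have ha' : a * star a = 1 := mul_eq_one_comm.1 ha
  have hA : star (sc a : Matrix D D (MonoidAlgebra ℂ G)) * sc a = 1 := by
    rw [← sc_star, ← sc_mul, ha, sc_one]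
  have hA' : (sc a : Matrix D D (MonoidAlgebra ℂ G)) * star (sc a) = 1 := by
    rw [← sc_star, ← sc_mul, ha', sc_one]
  refine ⟨a, J, Qs.map fun Q => star (sc a) * Q * sc a, β, ha, hJ, hJa, hK, ?_, ?_, hβ, ?_⟩
  · intro Q hQ
    obtain ⟨Q', hQ', rfl⟩ := List.mem_map.1 hQ
    obtain ⟨h1, h2⟩ := hQs Q' hQ'
    refine ⟨?_, ?_⟩
    · rw [star_mul, star_mul, star_star, h1, mul_assoc]
    · calc star (sc a) * Q' * sc a * (star (sc a) * Q' * sc a)
          = star (sc a) * Q' * (sc a * star (sc a)) * Q' * sc a := by noncomm_ring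
        _ = star (sc a) * Q' * sc a := by rw [hA', mul_one, mul_assoc (star (sc a)) Q' Q', h2]
  · refine le_trans (le_of_eq ?_) htr
    congr 2
    rw [List.map_map]
    refine List.map_congr_left fun Q _ => ?_
    simp only [Function.comp]
    rw [posTr_trM.comm, ← mul_assoc, hA', one_mul]
  · rw [← refl_conj hA hA', hprod]

end Vale.Agent.P174.H717
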