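import Mathlib.Analysis.SpecialFunctions.Complex.Circle
import Mathlib.Analysis.Calculus.Deriv.MeanValue
import Mathlib.Algebra.Star.SelfAdjoint
import Mathlib.Analysis.SpecialFunctions.Trigonometric.Deriv

/-!
# The trace inequality
-/

namespace Vale.Agent.P174.H717

open Complex Finset

/-- Coefficient of the polynomial. -/
noncomputable def cf (n k : ℕ) : ℝ := 1 - (k : ℝ) / n

/-- `2 Re sum_{0<k<n} (i (1 - k/n) / k) e^{iks} t_k`. -/
noncomputable def GG (n : ℕ) (s : ℝ) (t : ℕ → ℂ) : ℝ :=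
  2 * (∑ k ∈ Ico 1 n, (I * (cf n k : ℂ) / k) * exp (I * k * s) * t k).re

/-- `2 Re sum_{0<k<n} (1 - k/n) e^{iks} t_k`. -/
noncomputable def FF (n : ℕ) (s : ℝ) (t : ℕ → ℂ) : ℝ :=
  2 * (∑ k ∈ Ico 1 n, (cf n k : ℂ) * exp (I * k * s) * t k).re

/-- The sawtooth polynomial. -/
noncomputable def saw (n : ℕ) (x : ℝ) : ℝ := GG n x fun _ => 1

variable {𝒜 : Type*} [Ring 𝒜] [StarRing 𝒜] [Algebra ℂ 𝒜] [StarModule ℂ 𝒜]

/-- Geometric sum. -/
def geo (n : ℕ) (Z : 𝒜) : 𝒜 := ∑ j ∈ range n, Z ^ j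

omit [StarModule ℂ 𝒜] in
/-- The square of the geometric sum of a unitary. -/
theorem geo_star_mul {Z : 𝒜} (hZ : star Z * Z = 1) (n : ℕ) :
    star (geo n Z) * geo n Z = (n : 𝒜) +
      ∑ k ∈ Ico 1 n, ((n : ℂ) - k) • (Z ^ k + star Z ^ k) := by
  induction n with
  | zero => simp [geo]
  | succ n ih =>
    have hcan : ∀ j ≤ n, star Z ^ j * Z ^ n = Z ^ (n - j) := by
      intro j hj
      have : ∀ j, star Z ^ j * Z ^ j = 1 := by
        intro j
        induction j with
        | zero => simp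
        | succ j ihj =>
          rw [pow_succ, pow_succ', mul_assoc, ← mul_assoc (star Z) Z, hZ, one_mul, ihj]
      have e : Z ^ n = Z ^ j * Z ^ (n - j) := by rw [← pow_add]; congr 1; omega
      rw [e, ← mul_assoc, this, one_mul]
    have hS : geo (n + 1) Z = geo n Z + Z ^ n := by
      unfold geo
      rw [sum_range_succ]
    have h1 : star (geo n Z) * Z ^ n = ∑ k ∈ Ico 1 (n + 1), Z ^ k := by
      unfold geo
      rw [star_sum, sum_mul]
      have : ∀ j ∈ range n, star (Z ^ j) * Z ^ n = Z ^ (n - j) := by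
        intro j hj
        rw [star_pow]
        exact hcan j (mem_range.1 hj).le
      rw [sum_congr rfl this, ← sum_range_reflect]
      rw [range_eq_Ico, ← sum_Ico_add' (fun k => Z ^ k) 0 n 1]
      refine sum_congr rfl fun j hj => ?_
      rw [mem_Ico] at hj
      congr 1
      omega
    have h2 : star (Z ^ n) * geo n Z = ∑ k ∈ Ico 1 (n + 1), star Z ^ k := by
      have := congrArg star h1
      rw [star_mul, star_star, star_sum] at this
      rw [this]
      exact sum_congr rfl fun k _ => star_pow _ _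
    have h3 : star (Z ^ n) * Z ^ n = 1 := by
      rw [star_pow, hcan n le_rfl, Nat.sub_self, pow_zero]
    rw [hS, star_add, add_mul, mul_add, mul_add, ih, h1, h2, h3]
    have h4 : ∑ k ∈ Ico 1 (n + 1), (((n + 1 : ℕ) : ℂ) - k) • (Z ^ k + star Z ^ k) =
        ∑ k ∈ Ico 1 n, ((n : ℂ) - k) • (Z ^ k + star Z ^ k) +
        (∑ k ∈ Ico 1 (n + 1), Z ^ k + ∑ k ∈ Ico 1 (n + 1), star Z ^ k) := by
      rw [← sum_add_distrib]
      have h5 : ∑ k ∈ Ico 1 n, ((n : ℂ) - k) • (Z ^ k + star Z ^ k) =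
          ∑ k ∈ Ico 1 (n + 1), ((n : ℂ) - k) • (Z ^ k + star Z ^ k) := by
        rcases Nat.eq_zero_or_pos n with h0 | h0
        · subst h0
          simp
        · rw [sum_Ico_succ_top h0, sub_self, zero_smul, add_zero]
      rw [h5, ← sum_add_distrib]
      refine sum_congr rfl fun k _ => ?_
      push_cast
      rw [add_sub_right_comm, add_smul, one_smul]
    rw [h4]
    push_cast
    abel

/-- A positive trace. -/
structure PosTr (τ : 𝒜 →ₗ[ℂ] ℂ) : Prop where
  comm : ∀ x y, τ (x * y) = τ (y * x)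
  star : ∀ x, τ (Star.star x) = (starRingEnd ℂ) (τ x)
  pos : ∀ x, 0 ≤ (τ (Star.star x * x)).re

variable {τ : 𝒜 →ₗ[ℂ] ℂ}

/-- Positivity of the Fejer kernel against a projection. -/
theorem fejer_pos (hτ : PosTr τ) {Z Q : 𝒜} (hZ : star Z * Z = 1) (hQ : star Q = Q)
    (hQQ : Q * Q = Q) {n : ℕ} (hn : 0 < n) (s : ℝ) :
    0 ≤ (τ Q).re + FF n s fun k => τ (Z ^ k * Q) := by
  set Z' : 𝒜 := exp (I * s) • Z with hZ'
  have hexp : (starRingEnd ℂ) (exp (I * s)) * exp (I * s) = 1 := by
    rw [← exp_conj, ← exp_add]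
    simp
  have hZ1 : star Z' * Z' = 1 := by
    rw [hZ', star_smul, smul_mul_smul_comm, hZ, RCLike.star_def, hexp, one_smul]
  have hpow : ∀ k : ℕ, Z' ^ k = exp (I * k * s) • Z ^ k := by
    intro k
    rw [hZ', smul_pow, ← exp_nat_mul]
    congr 2
    ring
  have h1 := hτ.pos (geo n Z' * Q)
  have h2 : τ (star (geo n Z' * Q) * (geo n Z' * Q)) = (n : ℂ) * τ Q +
      ∑ k ∈ Ico 1 n, ((n : ℂ) - k) * (τ (Z' ^ k * Q) + (starRingEnd ℂ) (τ (Z' ^ k * Q))) := by
    have e1 : τ (star (geo n Z' * Q) * (geo n Z' * Q)) =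
        τ ((star (geo n Z') * geo n Z') * Q) := by
      rw [star_mul, hQ, mul_assoc, hτ.comm, mul_assoc, mul_assoc, hQQ, mul_assoc]
    rw [e1, geo_star_mul hZ1, add_mul, sum_mul, map_add, map_sum]
    congr 1
    · have : ((n : 𝒜) * Q) = (n : ℂ) • Q := by
        rw [Nat.cast_smul_eq_nsmul, nsmul_eq_mul]
      rw [this, map_smul, smul_eq_mul]
    · refine sum_congr rfl fun k _ => ?_
      rw [smul_mul_assoc, map_smul, add_mul, map_add, smul_eq_mul]
      congr 2
      rw [← hτ.star, star_mul, hQ, star_pow, hτ.comm]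
  rw [h2] at h1
  have h3 : ((n : ℂ) * τ Q + ∑ k ∈ Ico 1 n, ((n : ℂ) - k) *
      (τ (Z' ^ k * Q) + (starRingEnd ℂ) (τ (Z' ^ k * Q)))).re =
      n * ((τ Q).re + FF n s fun k => τ (Z ^ k * Q)) := by
    have hn0 : (n : ℝ) ≠ 0 := by positivity
    unfold FF
    rw [add_re, re_sum, mul_add, re_sum]
    congr 1
    · rw [← ofReal_natCast, re_ofReal_mul]
    · rw [mul_sum, mul_sum]
      refine sum_congr rfl fun k _ => ?_
      rw [hpow, smul_mul_assoc, map_smul, smul_eq_mul]
      set x := exp (I * k * s) * τ (Z ^ k * Q) with hx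
      have e1 : (n : ℂ) - k = ((n - k : ℝ) : ℂ) := by push_cast; rfl
      rw [e1, re_ofReal_mul, add_re, conj_re, mul_assoc ((cf n k : ℝ) : ℂ), ← hx, re_ofReal_mul]
      unfold cf
      field_simp
      ring
  rw [h3] at h1
  have hn0 : (0 : ℝ) < n := by positivity
  exact nonneg_of_mul_nonneg_right h1 hn0

omit [StarRing 𝒜] [StarModule ℂ 𝒜] in
theorem hasDerivAt_pow (X Y : 𝒜) (k : ℕ) (w : ℂ) :
    ∃ D : 𝒜, (∀ L : 𝒜 →ₗ[ℂ] ℂ, HasDerivAt (fun w : ℂ => L ((X + w • Y) ^ k)) (L D) w) ∧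
      ∀ τ : 𝒜 →ₗ[ℂ] ℂ, (∀ x y, τ (x * y) = τ (y * x)) → ∀ B : 𝒜,
        Commute B (X + w • Y) → τ (D * B) = k * τ ((X + w • Y) ^ (k - 1) * Y * B) := by
  induction k with
  | zero =>
    refine ⟨0, fun L => ?_, fun τ _ B _ => ?_⟩
    · simp only [pow_zero, map_zero]
      exact hasDerivAt_const w _
    · simp
  | succ k ih =>
    obtain ⟨D, hD, hDτ⟩ := ih
    refine ⟨D * (X + w • Y) + (X + w • Y) ^ k * Y, fun L => ?_, fun τ hτ B hB => ?_⟩
    · have h1 := hD (L ∘ₗ LinearMap.mulRight ℂ X)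
      have h2 := hD (L ∘ₗ LinearMap.mulRight ℂ Y)
      have h3 := h1.add ((hasDerivAt_id w).mul h2)
      refine (h3.congr_deriv ?_).congr_of_eventuallyEq (Filter.Eventually.of_forall fun v => ?_)
      · simp only [LinearMap.comp_apply, LinearMap.mulRight_apply, id_eq, one_mul, mul_add,
          map_add, mul_smul_comm, map_smul, smul_eq_mul]
        ring
      · simp only [LinearMap.comp_apply, LinearMap.mulRight_apply, id_eq, pow_succ, mul_add,
          map_add, mul_smul_comm, map_smul, smul_eq_mul, Pi.add_apply, Pi.mul_apply]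
    · rw [add_mul, map_add]
      have e1 : D * (X + w • Y) * B = D * (B * (X + w • Y)) := by
        rw [mul_assoc, hB.eq]
      have hB' : Commute (B * (X + w • Y)) (X + w • Y) := hB.mul_left (Commute.refl _)
      rw [e1, hDτ τ hτ _ hB']
      rcases Nat.eq_zero_or_pos k with h0 | h0
      · subst h0
        simp
      · have e2 : τ ((X + w • Y) ^ (k - 1) * Y * (B * (X + w • Y))) =
            τ ((X + w • Y) ^ k * Y * B) := by
          rw [← mul_assoc, hτ, ← mul_assoc, ← mul_assoc, ← pow_succ', Nat.sub_add_cancel h0]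
        rw [e2, Nat.add_sub_cancel]
        push_cast
        ring

theorem hasDerivAt_re' {f : ℝ → ℂ} {f' : ℂ} {x : ℝ} (h : HasDerivAt f f' x) :
    HasDerivAt (fun x => (f x).re) f'.re x :=
  (Complex.reCLM.hasFDerivAt (x := f x)).comp_hasDerivAt x h

/-- **The trace inequality.** -/
theorem trace_ineq (hτ : PosTr τ) {A P : 𝒜} (hA : star A * A = 1) (hP : star P = P)
    (hPP : P * P = P) {n : ℕ} (hn : 0 < n) (s : ℝ) :
    GG n s (fun k => τ ((A * (1 - 2 * P)) ^ k)) ≤
      GG n s (fun k => τ (A ^ k)) + Real.pi * (τ P).re := by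
  set X : 𝒜 := A * (1 - P) with hX
  set Y : 𝒜 := A * P with hY
  set w : ℝ → ℂ := fun r => exp (I * Real.pi * r) with hw
  set C : ℝ → 𝒜 := fun r => X + w r • Y with hC
  have hwd : ∀ r, HasDerivAt w (I * Real.pi * w r) r := by
    intro r
    have h1 : HasDerivAt (fun r : ℝ => I * Real.pi * (r : ℂ)) (I * Real.pi) r := by
      have := (ofRealCLM.hasDerivAt (x := r)).const_mul (I * Real.pi)
      simpa using this
    exact h1.cexp.congr_deriv (mul_comm _ _)
  have hwc : ∀ r, (starRingEnd ℂ) (w r) * w r = 1 := by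
    intro r
    rw [hw]
    simp only
    rw [← exp_conj, ← exp_add]
    simp
  have hCP : ∀ r, C r * P = w r • Y := by
    intro r
    simp only [hC, hX, hY]
    rw [add_mul, smul_mul_assoc, mul_assoc, mul_assoc, hPP, sub_mul, one_mul, hPP, sub_self,
      mul_zero, zero_add]
  have hCu : ∀ r, star (C r) * C r = 1 := by
    intro r
    have h1 : (1 - P) * (1 - P) = 1 - P := by
      rw [sub_mul, one_mul, mul_sub, mul_one, hPP, sub_self, sub_zero]
    have h2 : P * (1 - P) = 0 := by rw [mul_sub, mul_one, hPP, sub_self]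
    have h3 : (1 - P) * P = 0 := by rw [sub_mul, one_mul, hPP, sub_self]
    have h4 : ∀ U V : 𝒜, star (A * U) * (A * V) = star U * V := by
      intro U V
      rw [star_mul, mul_assoc, ← mul_assoc (star A), hA, one_mul]
    simp only [hC, hX, hY]
    rw [star_add, star_smul, add_mul, mul_add, mul_add, smul_mul_assoc, mul_smul_comm,
      smul_mul_smul_comm, h4, h4, h4, h4, star_sub, star_one, hP, h1, h2, h3, hPP,
      RCLike.star_def, hwc, one_smul]
    simp
  have hder : ∀ r, HasDerivAt (fun r => GG n s (fun k => τ (C r ^ k)))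
      (-(Real.pi * FF n s fun k => τ (C r ^ k * P))) r := by
    intro r
    have h1 : ∀ k ∈ Ico 1 n, HasDerivAt
        (fun r => (I * (cf n k : ℂ) / k) * exp (I * k * s) * τ (C r ^ k))
        (-(Real.pi * ((cf n k : ℂ) * exp (I * k * s) * τ (C r ^ k * P)))) r := by
      intro k hk
      rw [mem_Ico] at hk
      obtain ⟨D, hD, hDτ⟩ := hasDerivAt_pow X Y k (w r)
      have h2 := (hD τ).comp r (hwd r)
      have h3 := h2.const_mul ((I * (cf n k : ℂ) / k) * exp (I * k * s))
      refine h3.congr_deriv ?_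
      have h4 := hDτ τ hτ.comm 1 (Commute.one_left _)
      rw [mul_one, mul_one] at h4
      have h5 : τ (C r ^ k * P) = w r * τ ((X + w r • Y) ^ (k - 1) * Y) := by
        have e : C r ^ k * P = C r ^ (k - 1) * (C r * P) := by
          rw [← mul_assoc, ← pow_succ, Nat.sub_add_cancel hk.1]
        rw [e, hCP, mul_smul_comm, map_smul, smul_eq_mul]
      rw [h5, h4]
      have hk0 : (k : ℂ) ≠ 0 := Nat.cast_ne_zero.2 (by omega)
      field_simp
      ring_nf
      rw [I_sq]
      ring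
    have h2 := HasDerivAt.fun_sum h1
    have h3 := (hasDerivAt_re' h2).const_mul 2
    refine h3.congr_deriv ?_
    unfold FF
    rw [sum_neg_distrib, ← mul_sum, neg_re, re_ofReal_mul]
    ring
  have hanti : AntitoneOn (fun r => GG n s (fun k => τ (C r ^ k)) - r * (Real.pi * (τ P).re))
      (Set.Icc 0 1) := by
    have hd : ∀ r, HasDerivAt
        (fun r => GG n s (fun k => τ (C r ^ k)) - r * (Real.pi * (τ P).re))
        (-(Real.pi * FF n s fun k => τ (C r ^ k * P)) - 1 * (Real.pi * (τ P).re)) r :=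
      fun r => (hder r).sub ((hasDerivAt_id r).mul_const _)
    refine antitoneOn_of_deriv_nonpos (convex_Icc 0 1)
      (fun r _ => (hd r).continuousAt.continuousWithinAt)
      (fun r _ => (hd r).differentiableAt.differentiableWithinAt) fun r _ => ?_
    rw [(hd r).deriv]
    have h1 := fejer_pos hτ (hCu r) hP hPP hn s
    have h2 := mul_nonneg Real.pi_pos.le h1
    rw [mul_add] at h2
    linarith
  have h1 := hanti (Set.left_mem_Icc.2 zero_le_one) (Set.right_mem_Icc.2 zero_le_one) zero_le_one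
  simp only [one_mul, zero_mul, sub_zero] at h1
  have hC0 : C 0 = A := by
    simp only [hC, hw, hX, hY]
    rw [ofReal_zero, mul_zero, exp_zero, one_smul, ← mul_add, sub_add_cancel, mul_one]
  have hC1 : C 1 = A * (1 - 2 * P) := by
    simp only [hC, hw, hX, hY]
    rw [ofReal_one, mul_one, mul_comm I, exp_pi_mul_I, neg_one_smul, ← sub_eq_add_neg, ← mul_sub]
    congr 1
    rw [two_mul, sub_sub]
  rw [hC0, hC1] at h1
  linarith

/-- Derivative in the shift. -/
theorem hasDerivAt_GG (n : ℕ) (t : ℕ → ℂ) (s : ℝ) :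
    HasDerivAt (fun s => GG n s t) (-FF n s t) s := by
  have h1 : ∀ k ∈ Ico 1 n, HasDerivAt
      (fun s : ℝ => (I * (cf n k : ℂ) / k) * exp (I * k * s) * t k)
      (-((cf n k : ℂ) * exp (I * k * s) * t k)) s := by
    intro k hk
    rw [mem_Ico] at hk
    have h1 : HasDerivAt (fun r : ℝ => I * k * (r : ℂ)) (I * k) s := by
      have := (ofRealCLM.hasDerivAt (x := s)).const_mul (I * k)
      simpa using this
    have h2 := ((h1.cexp).const_mul (I * (cf n k : ℂ) / k)).mul_const (t k)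
    refine h2.congr_deriv ?_
    have hk0 : (k : ℂ) ≠ 0 := Nat.cast_ne_zero.2 (by omega)
    field_simp
    ring_nf
    rw [I_sq]
    ring
  have h2 := HasDerivAt.fun_sum h1
  have h3 := (hasDerivAt_re' h2).const_mul 2
  refine h3.congr_deriv ?_
  unfold FF
  rw [sum_neg_distrib, neg_re]
  ring

theorem FF_add (n : ℕ) (s : ℝ) (t u : ℕ → ℂ) :
    FF n s (fun k => t k + u k) = FF n s t + FF n s u := by
  unfold FF
  rw [← mul_add, ← add_re, ← sum_add_distrib]
  congr 2
  exact sum_congr rfl fun k _ => by ring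

theorem FF_const_mul (n : ℕ) (s : ℝ) (c : ℝ) (t : ℕ → ℂ) :
    FF n s (fun k => (c : ℂ) * t k) = c * FF n s t := by
  unfold FF
  rw [mul_left_comm c, ← re_ofReal_mul c, mul_sum]
  congr 2
  exact sum_congr rfl fun k _ => by ring

theorem GG_add (n : ℕ) (s : ℝ) (t u : ℕ → ℂ) :
    GG n s (fun k => t k + u k) = GG n s t + GG n s u := by
  unfold GG
  rw [← mul_add, ← add_re, ← sum_add_distrib]
  congr 2
  exact sum_congr rfl fun k _ => by ring

theorem GG_const_mul (n : ℕ) (s : ℝ) (c : ℝ) (t : ℕ → ℂ) :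
    GG n s (fun k => (c : ℂ) * t k) = c * GG n s t := by
  unfold GG
  rw [mul_left_comm c, ← re_ofReal_mul c, mul_sum]
  congr 2
  exact sum_congr rfl fun k _ => by ring

/-- The function is odd if the moments are real. -/
theorem GG_neg (n : ℕ) (s : ℝ) (t : ℕ → ℂ) (ht : ∀ k, (starRingEnd ℂ) (t k) = t k) :
    GG n (-s) t = -GG n s t := by
  unfold GG
  have h1 : (∑ k ∈ Ico 1 n, (I * (cf n k : ℂ) / k) * exp (I * k * (-s : ℝ)) * t k) =
      -(starRingEnd ℂ) (∑ k ∈ Ico 1 n, (I * (cf n k : ℂ) / k) * exp (I * k * s) * t k) := by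
    rw [map_sum, ← sum_neg_distrib]
    refine sum_congr rfl fun k _ => ?_
    rw [map_mul, map_mul, ht, ← exp_conj, map_div₀, map_mul, conj_I, conj_ofReal, map_natCast,
      map_mul, map_mul, conj_I, map_natCast, conj_ofReal]
    push_cast
    ring_nf
  rw [h1, neg_re, conj_re]
  ring

/-- The estimate for the scalar part: a unitary with real moments and with a projection on fixed
vectors. -/
theorem scalar_est (hτ : PosTr τ) {A Q : 𝒜} (hA : star A * A = 1) (hQ : star Q = Q)
    (hQQ : Q * Q = Q) (hAQ : A * Q = Q) (hreal : ∀ k : ℕ, (starRingEnd ℂ) (τ (A ^ k)) = τ (A ^ k))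
    {n : ℕ} (hn : 0 < n) {η : ℝ} (hη : 0 ≤ η) :
    GG n η (fun k => τ (A ^ k)) ≤ η * ((τ 1).re - (τ Q).re) + (τ Q).re * saw n η := by
  have hτQ : τ Q = ((τ Q).re : ℂ) := by
    have h1 := hτ.star Q
    rw [hQ] at h1
    exact (conj_eq_iff_real.1 h1.symm).elim fun r hr => by rw [hr, ofReal_re]
  have hAk : ∀ k : ℕ, A ^ k * Q = Q := by
    intro k
    induction k with
    | zero => simp
    | succ k ih => rw [pow_succ, mul_assoc, hAQ, ih]
  have hsplit : ∀ k : ℕ, τ (A ^ k) = ((τ Q).re : ℂ) * 1 + τ (A ^ k * (1 - Q)) := by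
    intro k
    rw [mul_sub, mul_one, hAk, map_sub, mul_one, ← hτQ]
    ring
  have h1Q : star (1 - Q) = 1 - Q := by rw [star_sub, star_one, hQ]
  have h1QQ : (1 - Q) * (1 - Q) = 1 - Q := by
    rw [sub_mul, one_mul, mul_sub, mul_one, hQQ, sub_self, sub_zero]
  have hF : ∀ s, -FF n s (fun k => τ (A ^ k)) ≤
      ((τ 1).re - (τ Q).re) - (τ Q).re * FF n s (fun _ => 1) := by
    intro s
    have h1 := fejer_pos hτ hA h1Q h1QQ hn s
    have h2 : FF n s (fun k => τ (A ^ k)) = (τ Q).re * FF n s (fun _ => 1) +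
        FF n s fun k => τ (A ^ k * (1 - Q)) := by
      rw [← FF_const_mul, ← FF_add]
      congr 1
      funext k
      exact hsplit k
    rw [h2]
    rw [map_sub, sub_re] at h1
    linarith
  have hanti : Antitone fun s => GG n s (fun k => τ (A ^ k)) - s * ((τ 1).re - (τ Q).re) -
      (τ Q).re * GG n s (fun _ => 1) := by
    have hd : ∀ s, HasDerivAt (fun s => GG n s (fun k => τ (A ^ k)) -
        s * ((τ 1).re - (τ Q).re) - (τ Q).re * GG n s (fun _ => 1))
        (-FF n s (fun k => τ (A ^ k)) - 1 * ((τ 1).re - (τ Q).re) -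
          (τ Q).re * (-FF n s (fun _ => 1))) s := fun s =>
      ((hasDerivAt_GG n _ s).sub ((hasDerivAt_id s).mul_const _)).sub
        ((hasDerivAt_GG n _ s).const_mul _)
    refine antitone_of_deriv_nonpos (fun s => (hd s).differentiableAt) fun s => ?_
    rw [(hd s).deriv]
    have := hF s
    linarith
  have h1 := hanti (show -η ≤ η by linarith)
  simp only at h1
  rw [GG_neg n η _ hreal, GG_neg n η (fun _ => 1) (fun _ => by simp)] at h1
  unfold saw
  linarith

end Vale.Agent.P174.H717
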